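import Vale.Agent.H14.Cotype.Tree

set_option linter.unusedSectionVars false

open Finset

namespace Vale.Agent.H14.Cotype

variable {V : Type} [Fintype V] [DecidableEq V]

/-- States of the refined lazy chain: vertices and oriented edges. -/
abbrev St (V : Type) := V ⊕ (V × V)

/-- One step of the refined chain: from `x` choose an edge `(x, y)` with probability `A x y`;
from `(x, y)` go to `x` or `y` with probability `1/2` each. -/
noncomputable def KK (A : V → V → ℝ) : St V → St V → ℝ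
  | Sum.inl x, Sum.inr e => if e.1 = x then A x e.2 else 0
  | Sum.inl _, Sum.inl _ => 0
  | Sum.inr e, Sum.inl z => (if z = e.1 then 1 / 2 else 0) + (if z = e.2 then 1 / 2 else 0)
  | Sum.inr _, Sum.inr _ => 0

/-- current state -/
def hd (x0 : V) (p : List (St V)) : St V := p.headD (Sum.inl x0)

@[simp] lemma hd_cons (x0 : V) (s : St V) (p : List (St V)) : hd x0 (s :: p) = s := rfl

/-- kernel on histories -/
noncomputable def kap (A : V → V → ℝ) (x0 : V) (p : List (St V)) (s : St V) : ℝ :=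
  KK A (hd x0 p) s

/-- terminal functional -/
def tm (f : V → ℝ) : St V → ℝ
  | Sum.inl x => f x
  | Sum.inr _ => 0

def term (x0 : V) (f : V → ℝ) (p : List (St V)) : ℝ := tm f (hd x0 p)

/-- functional supported on edge states -/
def eg (φ : V → V → ℝ) : St V → ℝ
  | Sum.inl _ => 0
  | Sum.inr e => φ e.1 e.2

/-- lazy heat flow -/
noncomputable def heat (A : V → V → ℝ) (f : V → ℝ) : ℕ → V → ℝ
  | 0 => f
  | (n + 1) => fun x => ∑ y, A x y * (1 / 2 * heat A f n x + 1 / 2 * heat A f n y)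

variable {A : V → V → ℝ}

lemma kap_stoch (hA0 : ∀ x y, 0 ≤ A x y) (hA1 : ∀ x, ∑ y, A x y = 1) (x0 : V) :
    Stoch (kap A x0) := by
  constructor
  · intro p s
    unfold kap
    rcases hd x0 p with x | e
    · rcases s with z | e'
      · simp [KK]
      · simp only [KK]; split_ifs
        · exact hA0 _ _
        · exact le_rfl
    · rcases s with z | e'
      · simp only [KK]
        split_ifs <;> norm_num
      · simp [KK]
  · intro p
    unfold kap
    rcases hd x0 p with x | e
    · rw [Fintype.sum_sum_type]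
      simp only [KK, Finset.sum_const_zero, zero_add]
      rw [Fintype.sum_prod_type]
      simp only
      rw [Finset.sum_eq_single x]
      · simp [hA1]
      · intro b _ hb
        simp [hb]
      · simp
    · rw [Fintype.sum_sum_type]
      simp only [KK, Finset.sum_const_zero, add_zero]
      rw [Finset.sum_add_distrib]
      simp
      norm_num

lemma step_inl {x0 : V} {p : List (St V)} {x : V} (h : hd x0 p = Sum.inl x) (N : ℕ)
    (G : List (St V) → ℝ) :
    tE (kap A x0) (N + 1) G p = ∑ y, A x y * tE (kap A x0) N G (Sum.inr (x, y) :: p) := by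
  rw [tE_succ, Fintype.sum_sum_type]
  simp only [kap, h, KK, zero_mul, Finset.sum_const_zero, zero_add]
  rw [Fintype.sum_prod_type]
  simp only
  rw [Finset.sum_eq_single x]
  · simp
  · intro b _ hb
    simp [hb]
  · simp

lemma step_inr {x0 : V} {p : List (St V)} {e : V × V} (h : hd x0 p = Sum.inr e) (N : ℕ)
    (G : List (St V) → ℝ) :
    tE (kap A x0) (N + 1) G p = 1 / 2 * tE (kap A x0) N G (Sum.inl e.1 :: p)
      + 1 / 2 * tE (kap A x0) N G (Sum.inl e.2 :: p) := by
  rw [tE_succ, Fintype.sum_sum_type]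
  simp only [kap, h, KK, zero_mul, Finset.sum_const_zero, add_zero, add_mul, ite_mul]
  rw [Finset.sum_add_distrib]
  simp

lemma tE_term_even (x0 : V) (f : V → ℝ) (n : ℕ) :
    ∀ (p : List (St V)) (x : V), hd x0 p = Sum.inl x →
      tE (kap A x0) (2 * n) (term x0 f) p = heat A f n x := by
  induction n with
  | zero =>
    intro p x h
    simp [term, h, tm, heat]
  | succ n ih =>
    intro p x h
    rw [show 2 * (n + 1) = (2 * n + 1) + 1 by ring, step_inl h]
    simp only [heat]
    refine Finset.sum_congr rfl fun y _ => ?_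
    rw [step_inr (e := (x, y)) (hd_cons _ _ _), ih _ x (hd_cons _ _ _), ih _ y (hd_cons _ _ _)]

lemma tE_term_odd (x0 : V) (f : V → ℝ) (n : ℕ) (p : List (St V)) (e : V × V)
    (h : hd x0 p = Sum.inr e) :
    tE (kap A x0) (2 * n + 1) (term x0 f) p = 1 / 2 * heat A f n e.1 + 1 / 2 * heat A f n e.2 := by
  rw [step_inr h, tE_term_even x0 f n _ e.1 (hd_cons _ _ _),
    tE_term_even x0 f n _ e.2 (hd_cons _ _ _)]

lemma one_or_zero (hA1 : ∀ x, ∑ y, A x y = 1) (x0 : V) (N : ℕ) :
    ∃ c d : ℝ, (c = 0 ∨ c = 1) ∧ (d = 0 ∨ d = 1) ∧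
      (∀ (p : List (St V)) (x : V), hd x0 p = Sum.inl x →
        tE (kap A x0) N (term x0 (fun _ => 1)) p = c) ∧
      (∀ (p : List (St V)) (e : V × V), hd x0 p = Sum.inr e →
        tE (kap A x0) N (term x0 (fun _ => 1)) p = d) := by
  induction N with
  | zero =>
    refine ⟨1, 0, Or.inr rfl, Or.inl rfl, ?_, ?_⟩
    · intro p x h; simp [term, h, tm]
    · intro p e h; simp [term, h, tm]
  | succ N ih =>
    obtain ⟨c, d, hc, hd', h1, h2⟩ := ih
    refine ⟨d, c, hd', hc, ?_, ?_⟩
    · intro p x h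
      rw [step_inl h]
      have : ∀ y, A x y * tE (kap A x0) N (term x0 fun _ => 1) (Sum.inr (x, y) :: p) = A x y * d := by
        intro y
        rw [h2 _ (x, y) (hd_cons _ _ _)]
      simp only [this]
      rw [← Finset.sum_mul, hA1, one_mul]
    · intro p e h
      rw [step_inr h, h1 _ e.1 (hd_cons _ _ _), h1 _ e.2 (hd_cons _ _ _)]
      ring

lemma hDelta (hA0 : ∀ x y, 0 ≤ A x y) (hA1 : ∀ x, ∑ y, A x y = 1) (x0 : V) {f : V → ℝ}
    (hf : ∀ x, f x = 0 ∨ f x = 1) {c : ℝ} (hc : c = 0 ∨ c = 1) (N : ℕ) (p : List (St V))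
    (h1 : 1 / 8 < tE (kap A x0) N (term x0 f) p) (h2 : tE (kap A x0) N (term x0 f) p < 7 / 8) :
    1 / 8 ≤ tE (kap A x0) N (term x0 (fun j => |f j - c|)) p := by
  have hκ := kap_stoch hA0 hA1 x0
  rcases hc with rfl | rfl
  · have : (fun j => |f j - 0|) = f := by
      funext j
      rcases hf j with h | h <;> simp [h]
    rw [this]; exact h1.le
  · have h3 : tE (kap A x0) N (term x0 (fun _ => 1)) p
        = tE (kap A x0) N (term x0 (fun j => |f j - 1|)) p + tE (kap A x0) N (term x0 f) p := by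
      rw [← tE_add]
      refine tE_congr fun r _ => ?_
      unfold term
      rcases hd x0 (r ++ p) with x | e
      · simp only [tm]
        rcases hf x with h | h <;> simp [h]
      · simp [tm]
    have h4 : tE (kap A x0) N (term x0 (fun _ => 1)) p = 0
        ∨ tE (kap A x0) N (term x0 (fun _ => 1)) p = 1 := by
      obtain ⟨c, d, hc, hd', g1, g2⟩ := one_or_zero hA1 x0 N
      rcases hh : hd x0 p with x | e
      · rw [g1 p x hh]; exact hc
      · rw [g2 p e hh]; exact hd'
    have h5 : 0 ≤ tE (kap A x0) N (term x0 (fun j => |f j - 1|)) p := by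
      refine tE_nonneg hκ (fun q => ?_) p
      unfold term
      rcases hd x0 q with x | e
      · simp [tm]
      · simp [tm]
    rcases h4 with h4 | h4
    · linarith
    · linarith

/-- recursion for the expectation of additive functionals -/
noncomputable def aF (A : V → V → ℝ) (φ : ℕ → V → V → ℝ) : ℕ → V → ℝ
  | 0 => fun _ => 0
  | (T + 1) => fun x => ∑ y, A x y * (φ (2 * T + 1) x y + (1 / 2 * aF A φ T x + 1 / 2 * aF A φ T y))

lemma tE_addF (hA0 : ∀ x y, 0 ≤ A x y) (hA1 : ∀ x, ∑ y, A x y = 1) (x0 : V)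
    (φ : ℕ → V → V → ℝ) (T : ℕ) :
    ∀ (p : List (St V)) (x : V), hd x0 p = Sum.inl x →
      tE (kap A x0) (2 * T) (addF (fun k q => eg (φ k) (hd x0 q)) (2 * T)) p = aF A φ T x := by
  have hκ := kap_stoch hA0 hA1 x0
  induction T with
  | zero =>
    intro p x h
    simp [addF, aF]
  | succ T ih =>
    intro p x h
    rw [show 2 * (T + 1) = (2 * T + 1) + 1 by ring, step_inl h]
    simp only [aF]
    refine Finset.sum_congr rfl fun y _ => ?_
    rw [step_inr (e := (x, y)) (hd_cons _ _ _)]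
    have key : ∀ z : V, tE (kap A x0) (2 * T)
        (addF (fun k q => eg (φ k) (hd x0 q)) (2 * T + 1 + 1))
        (Sum.inl z :: Sum.inr (x, y) :: p) = aF A φ T z + φ (2 * T + 1) x y := by
      intro z
      rw [← ih (Sum.inl z :: Sum.inr (x, y) :: p) z (hd_cons _ _ _)]
      have h1 : tE (kap A x0) (2 * T) (fun _ => φ (2 * T + 1) x y)
          (Sum.inl z :: Sum.inr (x, y) :: p) = φ (2 * T + 1) x y := tE_const hκ _ _ _
      rw [← h1, ← tE_add]
      refine tE_congr fun r hr => ?_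
      rw [addF_succ, addF_succ, drop_app_succ hr]
      have h2 : (r ++ Sum.inl z :: Sum.inr (x, y) :: p).drop (2 * T + 1 + 1) = p := by
        have : r ++ Sum.inl z :: Sum.inr (x, y) :: p
            = (r ++ [Sum.inl z]) ++ Sum.inr (x, y) :: p := by simp
        rw [this]
        exact drop_app_succ (by simp [hr]) _ _
      rw [h2, h]
      simp [eg]
    rw [key, key]
    ring

lemma sum_aF {π : V → ℝ} (hA1 : ∀ x, ∑ y, A x y = 1)
    (hrev : ∀ x y, π x * A x y = π y * A y x) (φ : ℕ → V → V → ℝ) (T : ℕ) :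
    ∑ x, π x * aF A φ T x = ∑ n ∈ range T, ∑ x, ∑ y, π x * A x y * φ (2 * n + 1) x y := by
  induction T with
  | zero => simp [aF]
  | succ T ih =>
    rw [Finset.sum_range_succ, ← ih]
    have h1 : ∑ x, ∑ y, π x * A x y * (1 / 2 * aF A φ T x) = 1 / 2 * ∑ x, π x * aF A φ T x := by
      rw [Finset.mul_sum]
      refine Finset.sum_congr rfl fun x _ => ?_
      have : ∀ y, π x * A x y * (1 / 2 * aF A φ T x) = A x y * (1 / 2 * (π x * aF A φ T x)) := by
        intro y; ring
      simp only [this]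
      rw [← Finset.sum_mul, hA1, one_mul]
    have h2 : ∑ x, ∑ y, π x * A x y * (1 / 2 * aF A φ T y) = 1 / 2 * ∑ x, π x * aF A φ T x := by
      rw [Finset.sum_comm, ← h1]
      refine Finset.sum_congr rfl fun x _ => Finset.sum_congr rfl fun y _ => ?_
      rw [hrev]
    have h3 : ∑ x, π x * aF A φ (T + 1) x
        = ∑ x, ∑ y, π x * A x y * φ (2 * T + 1) x y
          + (∑ x, ∑ y, π x * A x y * (1 / 2 * aF A φ T x)
            + ∑ x, ∑ y, π x * A x y * (1 / 2 * aF A φ T y)) := by
      rw [← Finset.sum_add_distrib, ← Finset.sum_add_distrib]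
      refine Finset.sum_congr rfl fun x _ => ?_
      rw [← Finset.sum_add_distrib, ← Finset.sum_add_distrib]
      simp only [aF]
      rw [Finset.mul_sum]
      refine Finset.sum_congr rfl fun y _ => ?_
      ring
    rw [h3, h1, h2]
    ring

/-- truncation -/
noncomputable def Phi (z : ℝ) : ℝ := max 0 (min 1 (2 * z - 1 / 2))

lemma Phi_nonneg (z : ℝ) : 0 ≤ Phi z := le_max_left _ _
lemma Phi_le_one (z : ℝ) : Phi z ≤ 1 := max_le zero_le_one (min_le_left _ _)

lemma Phi_lip (a b : ℝ) : |Phi a - Phi b| ≤ 2 * |a - b| := by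
  unfold Phi
  have h1 := abs_max_sub_max_le_abs (min 1 (2 * a - 1 / 2)) (min 1 (2 * b - 1 / 2)) 0
  rw [max_comm _ (0 : ℝ), max_comm _ (0 : ℝ)] at h1
  have h2 : |min 1 (2 * a - 1 / 2) - min 1 (2 * b - 1 / 2)| ≤ |(2 * a - 1 / 2) - (2 * b - 1 / 2)| := by
    have := abs_min_sub_min_le_max (1 : ℝ) (2 * a - 1 / 2) 1 (2 * b - 1 / 2)
    simpa using this
  refine h1.trans (h2.trans (le_of_eq ?_))
  rw [show (2 * a - 1 / 2) - (2 * b - 1 / 2) = 2 * (a - b) by ring, abs_mul]
  norm_num

lemma Phi_eq_zero {z : ℝ} (h : z ≤ 1 / 4) : Phi z = 0 := by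
  unfold Phi
  apply max_eq_left
  exact (min_le_right _ _).trans (by linarith)

lemma Phi_eq_one {z : ℝ} (h : 3 / 4 ≤ z) : Phi z = 1 := by
  unfold Phi
  rw [min_eq_left (by linarith)]
  norm_num

lemma Phi_mid {a b : ℝ} (ha0 : 0 ≤ a) (hb0 : 0 ≤ b) (ha1 : a ≤ 1) (hb1 : b ≤ 1)
    (h : ¬ (1 / 8 < 1 / 2 * a + 1 / 2 * b ∧ 1 / 2 * a + 1 / 2 * b < 7 / 8)) :
    Phi a = Phi b := by
  by_cases h1 : 1 / 8 < 1 / 2 * a + 1 / 2 * b
  · have h2 : 7 / 8 ≤ 1 / 2 * a + 1 / 2 * b := by
      by_contra h3; exact h ⟨h1, not_le.mp h3⟩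
    rw [Phi_eq_one (by linarith), Phi_eq_one (by linarith)]
  · have h1 := not_lt.mp h1
    rw [Phi_eq_zero (by linarith), Phi_eq_zero (by linarith)]

lemma heat_mem (hA0 : ∀ x y, 0 ≤ A x y) (hA1 : ∀ x, ∑ y, A x y = 1) {f : V → ℝ} {a b : ℝ}
    (ha : ∀ x, a ≤ f x) (hb : ∀ x, f x ≤ b) (n : ℕ) (x : V) :
    a ≤ heat A f n x ∧ heat A f n x ≤ b := by
  induction n generalizing x with
  | zero => exact ⟨ha x, hb x⟩
  | succ n ih =>
    simp only [heat]
    constructor
    · calc a = ∑ y, A x y * a := by rw [← Finset.sum_mul, hA1, one_mul]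
        _ ≤ _ := Finset.sum_le_sum fun y _ => mul_le_mul_of_nonneg_left
            (by linarith [(ih x).1, (ih y).1]) (hA0 x y)
    · calc ∑ y, A x y * (1 / 2 * heat A f n x + 1 / 2 * heat A f n y)
          ≤ ∑ y, A x y * b := Finset.sum_le_sum fun y _ => mul_le_mul_of_nonneg_left
            (by linarith [(ih x).2, (ih y).2]) (hA0 x y)
        _ = b := by rw [← Finset.sum_mul, hA1, one_mul]

end Vale.Agent.H14.Cotype
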