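import Vale.Agent.H14.Cotype.Chain

set_option linter.unusedSectionVars false

open Finset

namespace Vale.Agent.H14.Cotype

variable {V : Type} [Fintype V] [DecidableEq V] {A : V → V → ℝ}

lemma tm_nonneg {f : V → ℝ} (hf : ∀ x, 0 ≤ f x) (s : St V) : 0 ≤ tm f s := by
  rcases s with x | e
  · exact hf x
  · exact le_rfl

lemma tm_le_one {f : V → ℝ} (hf : ∀ x, f x ≤ 1) (s : St V) : tm f s ≤ 1 := by
  rcases s with x | e
  · exact hf x
  · simp [tm]

lemma eg_nonneg {φ : V → V → ℝ} (hf : ∀ x y, 0 ≤ φ x y) (s : St V) : 0 ≤ eg φ s := by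
  rcases s with x | e
  · exact le_rfl
  · exact hf _ _

/-- conditional variance at an edge state -/
lemma cvar_edge (x0 : V) (f : V → ℝ) (n : ℕ) (p : List (St V)) (e : V × V)
    (h : hd x0 p = Sum.inr e) :
    cvar (kap A x0) (term x0 f) (2 * n) p = (1 / 2 * (heat A f n e.1 - heat A f n e.2)) ^ 2 := by
  unfold cvar
  rw [tE_term_odd x0 f n p e h, Fintype.sum_sum_type]
  simp only [kap, h, KK, zero_mul, Finset.sum_const_zero, add_zero]
  have : ∀ z, tE (kap A x0) (2 * n) (term x0 f) (Sum.inl z :: p) = heat A f n z :=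
    fun z => tE_term_even x0 f n _ z (hd_cons _ _ _)
  simp only [this, add_mul, ite_mul, zero_mul]
  rw [Finset.sum_add_distrib]
  simp
  ring

/-- The potential: additive functional used for the weighted gradient of `Phi (heat n f)`. -/
noncomputable def gradφ (A : V → V → ℝ) (v : V → V → ℝ) (f : V → ℝ) (k : ℕ) (x y : V) : ℝ :=
  if k % 2 = 1 then v x y * |Phi (heat A f (k / 2) x) - Phi (heat A f (k / 2) y)| else 0

lemma pointwise_grad (hA0 : ∀ x y, 0 ≤ A x y) (hA1 : ∀ x, ∑ y, A x y = 1) (x0 : V)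
    {v : V → V → ℝ} (hv : ∀ x y, 0 ≤ v x y) {f : V → ℝ} (hf0 : ∀ x, 0 ≤ f x)
    (hf1 : ∀ x, f x ≤ 1) (k : ℕ) (p : List (St V)) :
    eg (gradφ A v f k) (hd x0 p) ≤ 4 * (Real.sqrt (eg (fun x y => v x y ^ 2) (hd x0 p))
      * Real.sqrt (spF (kap A x0) (term x0 f) k p)) := by
  rcases hh : hd x0 p with x | e
  · simp only [eg]
    positivity
  · obtain ⟨x, y⟩ := e
    simp only [eg]
    by_cases hk : k % 2 = 1
    · obtain ⟨n, rfl⟩ : ∃ n, k = 2 * n + 1 := ⟨k / 2, by omega⟩
      have hk2 : (2 * n + 1) / 2 = n := by omega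
      simp only [gradφ, hk, if_true, hk2]
      rw [Real.sqrt_sq (hv x y)]
      have hx := heat_mem hA0 hA1 hf0 hf1 n x
      have hy := heat_mem hA0 hA1 hf0 hf1 n y
      unfold spF
      rw [tE_term_odd x0 f n p (x, y) hh]
      simp only [Nat.add_sub_cancel]
      split_ifs with hm
      · rw [cvar_edge x0 f n p (x, y) hh, Real.sqrt_sq_eq_abs]
        simp only
        rw [abs_mul, abs_of_pos (by norm_num : (0:ℝ) < 1 / 2)]
        have := mul_le_mul_of_nonneg_left (Phi_lip (heat A f n x) (heat A f n y)) (hv x y)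
        refine this.trans (le_of_eq ?_)
        ring
      · rw [Phi_mid hx.1 hy.1 hx.2 hy.2 hm]
        simp
    · simp only [gradφ, hk, if_false]
      positivity

lemma term_nonneg (x0 : V) {f : V → ℝ} (hf : ∀ x, 0 ≤ f x) (q : List (St V)) :
    0 ≤ term x0 f q := tm_nonneg hf _

lemma term_expand (x0 : V) (z : V → ℝ) (q : List (St V)) :
    term x0 z q = ∑ j, z j * term x0 (fun i => if i = j then 1 else 0) q := by
  unfold term
  rcases hd x0 q with x | e
  · simp [tm]
  · simp [tm]

lemma term_sq (x0 : V) (z : V → ℝ) (q : List (St V)) :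
    (term x0 z q) ^ 2 = term x0 (fun j => z j ^ 2) q := by
  unfold term
  rcases hd x0 q with x | e
  · simp [tm]
  · simp [tm]

/-- Chain-level form of the main estimate. -/
theorem chain_main {π : V → ℝ} (hπ : ∀ x, 0 ≤ π x) (hA0 : ∀ x y, 0 ≤ A x y)
    (hA1 : ∀ x, ∑ y, A x y = 1) (hrev : ∀ x y, π x * A x y = π y * A y x)
    {v : V → V → ℝ} (hv : ∀ x y, 0 ≤ v x y) (T : ℕ) (hT : 1 ≤ T) :
    ∃ ρ : V → V → ℝ, (∀ x j, 0 ≤ ρ x j) ∧
      (∀ f : V → ℝ, (∀ x, f x = 0 ∨ f x = 1) →
        ∑ n ∈ range T, ∑ x, ∑ y, π x * A x y * (v x y * |Phi (heat A f n x) - Phi (heat A f n y)|)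
          ≤ 32 * Real.sqrt T * ∑ x, ∑ j, ρ x j * |f j - f x|) ∧
      (∀ z : V → V → ℝ,
        ∑ x, ∑ j, ρ x j * z x j ≤ 4 * Real.sqrt (∑ x, ∑ y, π x * A x y * v x y ^ 2)
          * Real.sqrt (∑ x, π x * heat A (fun j => z x j ^ 2) T x)) := by
  have hTpos : (0 : ℝ) < T := by exact_mod_cast hT
  -- the weight functional
  set VV : V → List (St V) → ℝ := fun x0 => addF (fun _ q => eg (fun x y => v x y ^ 2) (hd x0 q)) (2 * T)
    with hVV
  have hVV0 : ∀ x0 q, 0 ≤ VV x0 q := fun x0 q =>
    addF_nonneg (fun _ _ => eg_nonneg (fun _ _ => sq_nonneg _) _) _ _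
  set U : V → List (St V) → ℝ := fun x0 q => Real.sqrt (VV x0 q / T) with hUdef
  have hU0 : ∀ x0 q, 0 ≤ U x0 q := fun x0 q => Real.sqrt_nonneg _
  set G : V → List (St V) → ℝ := fun x0 =>
    star (kap A x0) (2 * T) (star (kap A x0) (2 * T) (U x0)) with hG
  have hG0 : ∀ x0 q, 0 ≤ G x0 q := fun x0 => star_nonneg (star_nonneg (hU0 x0))
  set ρ : V → V → ℝ := fun x j => π x * tE (kap A x) (2 * T)
    (fun q => G x q * term x (fun i => if i = j then 1 else 0) q) [Sum.inl x] with hρ
  have hst : ∀ x0, Stoch (kap A x0) := kap_stoch hA0 hA1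
  have hind : ∀ x j q, 0 ≤ term x (fun i : V => if i = j then (1:ℝ) else 0) q := by
    intro x j q
    refine term_nonneg x (fun i => ?_) q
    split_ifs <;> norm_num
  -- expansion of ρ against a function
  have hexp : ∀ (x : V) (z : V → ℝ), ∑ j, ρ x j * z j
      = π x * tE (kap A x) (2 * T) (fun q => G x q * term x z q) [Sum.inl x] := by
    intro x z
    have h1 : (fun q => G x q * term x z q)
        = fun q => ∑ j, z j * (G x q * term x (fun i => if i = j then 1 else 0) q) := by
      funext q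
      rw [term_expand x z q, Finset.mul_sum]
      refine Finset.sum_congr rfl fun j _ => ?_
      ring
    rw [h1, tE_sum, Finset.mul_sum]
    refine Finset.sum_congr rfl fun j _ => ?_
    rw [tE_const_mul, hρ]
    ring
  refine ⟨ρ, ?_, ?_, ?_⟩
  · intro x j
    exact mul_nonneg (hπ x) (tE_nonneg (hst x) (fun q => mul_nonneg (hG0 x q) (hind x j q)) _)
  · intro f hf
    have hf0 : ∀ x, 0 ≤ f x := fun x => by rcases hf x with h | h <;> rw [h]; norm_num
    have hf1 : ∀ x, f x ≤ 1 := fun x => by rcases hf x with h | h <;> rw [h]; norm_num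
    -- left side as an expectation
    have hL : ∑ n ∈ range T, ∑ x, ∑ y, π x * A x y * (v x y * |Phi (heat A f n x) - Phi (heat A f n y)|)
        = ∑ x, π x * tE (kap A x) (2 * T)
          (addF (fun k q => eg (gradφ A v f k) (hd x q)) (2 * T)) [Sum.inl x] := by
      have h1 : ∀ x, tE (kap A x) (2 * T)
          (addF (fun k q => eg (gradφ A v f k) (hd x q)) (2 * T)) [Sum.inl x]
          = aF A (gradφ A v f) T x := fun x =>
        tE_addF hA0 hA1 x (gradφ A v f) T _ x (hd_cons _ _ _)
      simp only [h1]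
      rw [sum_aF hA1 hrev]
      refine Finset.sum_congr rfl fun n _ => Finset.sum_congr rfl fun x _ =>
        Finset.sum_congr rfl fun y _ => ?_
      have h2 : (2 * n + 1) % 2 = 1 := by omega
      have h3 : (2 * n + 1) / 2 = n := by omega
      simp only [gradφ, h2, if_true, h3]
    rw [hL, Finset.mul_sum]
    refine Finset.sum_le_sum fun x _ => ?_
    rw [hexp x (fun j => |f j - f x|)]
    -- pathwise estimate
    have hpath : ∀ q, addF (fun k q => eg (gradφ A v f k) (hd x q)) (2 * T) q
        ≤ 4 * Real.sqrt T * (U x q * Real.sqrt (addF (spF (kap A x) (term x f)) (2 * T) q)) := by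
      intro q
      have h1 : addF (fun k q => eg (gradφ A v f k) (hd x q)) (2 * T) q
          ≤ ∑ k ∈ range (2 * T), 4 * (Real.sqrt (eg (fun x y => v x y ^ 2) (hd x (q.drop (k + 1))))
            * Real.sqrt (spF (kap A x) (term x f) (k + 1) (q.drop (k + 1)))) :=
        Finset.sum_le_sum fun k _ => pointwise_grad hA0 hA1 x hv hf0 hf1 (k + 1) _
      refine h1.trans ?_
      rw [← Finset.mul_sum]
      have h2 := Real.sum_sqrt_mul_sqrt_le (range (2 * T))
        (f := fun k => eg (fun x y => v x y ^ 2) (hd x (q.drop (k + 1))))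
        (g := fun k => spF (kap A x) (term x f) (k + 1) (q.drop (k + 1)))
        (fun k => eg_nonneg (fun _ _ => sq_nonneg _) _)
        (fun k => spF_nonneg (hst x) _ _ _)
      have h3 : Real.sqrt (VV x q) = Real.sqrt T * U x q := by
        rw [hUdef, ← Real.sqrt_mul hTpos.le]
        congr 1
        field_simp
      have h4 : Real.sqrt (∑ k ∈ range (2 * T), eg (fun x y => v x y ^ 2) (hd x (q.drop (k + 1))))
          = Real.sqrt T * U x q := by
        rw [← h3]; rfl
      rw [h4] at h2
      have h5 : addF (spF (kap A x) (term x f)) (2 * T) q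
          = ∑ k ∈ range (2 * T), spF (kap A x) (term x f) (k + 1) (q.drop (k + 1)) := rfl
      rw [h5]
      calc _ ≤ 4 * (Real.sqrt T * U x q
            * Real.sqrt (∑ k ∈ range (2 * T), spF (kap A x) (term x f) (k + 1) (q.drop (k + 1)))) :=
            mul_le_mul_of_nonneg_left h2 (by norm_num)
        _ = _ := by ring
    have h6 : tE (kap A x) (2 * T)
        (addF (fun k q => eg (gradφ A v f k) (hd x q)) (2 * T)) [Sum.inl x]
        ≤ 4 * Real.sqrt T * tE (kap A x) (2 * T)
          (fun q => U x q * Real.sqrt (addF (spF (kap A x) (term x f)) (2 * T) q)) [Sum.inl x] := by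
      rw [← tE_const_mul]
      exact tE_mono (hst x) fun r _ => hpath _
    have h7 := main_tree (hst x) (U := U x) (Ξ := term x f) (Δ := term x (fun j => |f j - f x|))
      (hU0 x) (term_nonneg x hf0) (fun q => tm_le_one hf1 _)
      (term_nonneg x fun j => abs_nonneg _)
      (fun N p => hDelta hA0 hA1 x hf (hf x) N p) (2 * T) (2 * T) [Sum.inl x] le_rfl
    have h8 : (0:ℝ) ≤ 4 * Real.sqrt T := by positivity
    have h9 := h6.trans (mul_le_mul_of_nonneg_left h7 h8)
    have h10 := mul_le_mul_of_nonneg_left h9 (hπ x)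
    refine h10.trans (le_of_eq ?_)
    rw [hG]
    ring
  · intro z
    have h1 : ∑ x, ∑ j, ρ x j * z x j
        = ∑ x, π x * tE (kap A x) (2 * T) (fun q => G x q * term x (z x) q) [Sum.inl x] :=
      Finset.sum_congr rfl fun x _ => hexp x (z x)
    rw [h1]
    have hE2 : ∀ x, tE (kap A x) (2 * T) (fun q => G x q ^ 2) [Sum.inl x]
        ≤ 16 * tE (kap A x) (2 * T) (fun q => U x q ^ 2) [Sum.inl x] := by
      intro x
      have d1 := doob (hst x) (G := star (kap A x) (2 * T) (U x)) (2 * T) [Sum.inl x]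
      have d2 := doob (hst x) (G := U x) (2 * T) [Sum.inl x]
      have d3 : tE (kap A x) (2 * T) (fun q => G x q ^ 2) [Sum.inl x]
          ≤ 4 * tE (kap A x) (2 * T) (fun q => star (kap A x) (2 * T) (U x) q ^ 2) [Sum.inl x] := d1
      linarith
    have hUx : ∀ x, tE (kap A x) (2 * T) (fun q => U x q ^ 2) [Sum.inl x]
        = (1 / T) * aF A (fun _ x y => v x y ^ 2) T x := by
      intro x
      rw [← tE_addF hA0 hA1 x (fun _ x y => v x y ^ 2) T [Sum.inl x] x (hd_cons _ _ _),
        ← tE_const_mul]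
      congr 1
      funext q
      rw [hUdef]
      simp only
      rw [Real.sq_sqrt (div_nonneg (hVV0 x q) hTpos.le)]
      rw [hVV]
      ring
    have hsum : ∑ x, π x * tE (kap A x) (2 * T) (fun q => G x q ^ 2) [Sum.inl x]
        ≤ 16 * ∑ x, ∑ y, π x * A x y * v x y ^ 2 := by
      calc _ ≤ ∑ x, π x * (16 * ((1 / T) * aF A (fun _ x y => v x y ^ 2) T x)) := by
            refine Finset.sum_le_sum fun x _ => mul_le_mul_of_nonneg_left ?_ (hπ x)
            rw [← hUx]; exact hE2 x
        _ = 16 * (1 / T) * ∑ x, π x * aF A (fun _ x y => v x y ^ 2) T x := by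
            rw [Finset.mul_sum]
            refine Finset.sum_congr rfl fun x _ => ?_
            ring
        _ = 16 * ∑ x, ∑ y, π x * A x y * v x y ^ 2 := by
            rw [sum_aF hA1 hrev]
            simp only [Finset.sum_const, Finset.card_range, nsmul_eq_mul]
            field_simp
    have hterm : ∀ x, tE (kap A x) (2 * T) (fun q => term x (z x) q ^ 2) [Sum.inl x]
        = heat A (fun j => z x j ^ 2) T x := by
      intro x
      rw [← tE_term_even x (fun j => z x j ^ 2) T [Sum.inl x] x (hd_cons _ _ _)]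
      congr 1
      funext q
      exact term_sq x (z x) q
    have hcs : ∀ x, π x * tE (kap A x) (2 * T) (fun q => G x q * term x (z x) q) [Sum.inl x]
        ≤ Real.sqrt (π x * tE (kap A x) (2 * T) (fun q => G x q ^ 2) [Sum.inl x])
          * Real.sqrt (π x * heat A (fun j => z x j ^ 2) T x) := by
      intro x
      have c1 := tE_cs (hst x) (2 * T) (G x) (fun q => term x (z x) q) [Sum.inl x]
      rw [hterm] at c1
      have c2 : 0 ≤ tE (kap A x) (2 * T) (fun q => G x q ^ 2) [Sum.inl x] :=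
        tE_nonneg (hst x) (fun q => sq_nonneg _) _
      rw [← Real.sqrt_mul (mul_nonneg (hπ x) c2)]
      apply Real.le_sqrt_of_sq_le
      have : (π x * tE (kap A x) (2 * T) (fun q => G x q * term x (z x) q) [Sum.inl x]) ^ 2
          = π x ^ 2 * (tE (kap A x) (2 * T) (fun q => G x q * term x (z x) q) [Sum.inl x]) ^ 2 := by
        ring
      rw [this]
      have := mul_le_mul_of_nonneg_left c1 (sq_nonneg (π x))
      refine this.trans (le_of_eq ?_)
      ring
    have hheat0 : ∀ x, 0 ≤ π x * heat A (fun j => z x j ^ 2) T x := by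
      intro x
      refine mul_nonneg (hπ x) ?_
      rw [← hterm]
      exact tE_nonneg (hst x) (fun q => sq_nonneg _) _
    calc _ ≤ ∑ x, Real.sqrt (π x * tE (kap A x) (2 * T) (fun q => G x q ^ 2) [Sum.inl x])
          * Real.sqrt (π x * heat A (fun j => z x j ^ 2) T x) := Finset.sum_le_sum fun x _ => hcs x
      _ ≤ Real.sqrt (∑ x, π x * tE (kap A x) (2 * T) (fun q => G x q ^ 2) [Sum.inl x])
          * Real.sqrt (∑ x, π x * heat A (fun j => z x j ^ 2) T x) := by
          refine Real.sum_sqrt_mul_sqrt_le _ (fun x => mul_nonneg (hπ x) ?_) hheat0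
          exact tE_nonneg (hst x) (fun q => sq_nonneg _) _
      _ ≤ Real.sqrt (16 * ∑ x, ∑ y, π x * A x y * v x y ^ 2)
          * Real.sqrt (∑ x, π x * heat A (fun j => z x j ^ 2) T x) :=
          mul_le_mul_of_nonneg_right (Real.sqrt_le_sqrt hsum) (Real.sqrt_nonneg _)
      _ = _ := by
          rw [Real.sqrt_mul (by norm_num : (0:ℝ) ≤ 16)]
          have : Real.sqrt 16 = 4 := by
            rw [show (16:ℝ) = 4 ^ 2 by norm_num]
            exact Real.sqrt_sq (by norm_num)
          rw [this]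

end Vale.Agent.H14.Cotype
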