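import Vale.Agent.H14.Cotype.Smooth2

set_option linter.unusedSectionVars false

open Finset

namespace Vale.Agent.H14.Cotype

lemma real_contra_aux {m c K s γ ε θ j r : ℝ} (hc : 0 ≤ c)
    (hs0 : 0 ≤ s) (hγ : 0 < γ) (hγdef : γ = m - c * s) (hε0 : 0 < ε) (hε1 : ε ≤ 1)
    (hεm : ε * (m + K) ≤ γ) (hθ0 : 0 < θ) (hθ1 : θ ≤ 1) (hθ2 : θ * (1 + 2 * c) ≤ ε * γ / 2)
    (hj2 : j ≤ m + θ ^ 2) (hr : r ≤ s + θ)
    (h1 : m ≤ (1 - ε) ^ 2 * j + 2 * ε * (1 - ε) * (c * r) + ε ^ 2 * K) : False := by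
  have h1ε : 0 ≤ 1 - ε := by linarith
  have hcs0 : 0 ≤ c * s := mul_nonneg hc hs0
  have hcθ : 0 ≤ c * θ := mul_nonneg hc hθ0.le
  have h2 : (1 - ε) ^ 2 * j ≤ (1 - ε) ^ 2 * m + θ ^ 2 := by
    have h3 : (1 - ε) ^ 2 ≤ 1 := pow_le_one₀ h1ε (by linarith)
    have h4 : (1 - ε) ^ 2 * j ≤ (1 - ε) ^ 2 * (m + θ ^ 2) :=
      mul_le_mul_of_nonneg_left hj2 (sq_nonneg _)
    have h5 : (1 - ε) ^ 2 * θ ^ 2 ≤ 1 * θ ^ 2 := mul_le_mul_of_nonneg_right h3 (sq_nonneg θ)
    linarith [mul_add ((1 - ε) ^ 2) m (θ ^ 2)]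
  have h7 : 0 ≤ 2 * ε * (1 - ε) := mul_nonneg (by linarith) h1ε
  have h9 : 2 * ε * (1 - ε) ≤ 2 := by
    have : ε * (1 - ε) ≤ 1 * 1 := mul_le_mul hε1 (by linarith) h1ε (by norm_num)
    linarith
  have h5 : 2 * ε * (1 - ε) * (c * r) ≤ 2 * ε * (1 - ε) * (c * s) + 2 * (c * θ) := by
    have h6 : c * r ≤ c * s + c * θ := by
      have := mul_le_mul_of_nonneg_left hr hc
      linarith
    have h8 := mul_le_mul_of_nonneg_left h6 h7
    have h10 := mul_le_mul_of_nonneg_right h9 hcθ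
    linarith [mul_add (2 * ε * (1 - ε)) (c * s) (c * θ)]
  have h11 : θ ^ 2 ≤ θ := by
    have := mul_le_mul_of_nonneg_left hθ1 hθ0.le
    nlinarith
  have h12 : m ≤ (1 - ε) ^ 2 * m + 2 * ε * (1 - ε) * (c * s) + ε ^ 2 * K + ε * γ / 2 := by
    linarith [mul_add θ 1 (2 * c), h2, h5]
  have h14 : ε ^ 2 * (m + K) ≤ ε * γ := by
    have := mul_le_mul_of_nonneg_left hεm hε0.le
    linarith [this, (by ring : ε ^ 2 * (m + K) = ε * (ε * (m + K)))]
  have h15 : 0 ≤ ε ^ 2 * (c * s) := mul_nonneg (sq_nonneg _) hcs0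
  have h16 : 0 < ε * γ := mul_pos hε0 hγ
  have h17 : 2 * (ε * γ) = 2 * ε * m - 2 * ε * (c * s) := by rw [hγdef]; ring
  have h18 : m - ((1 - ε) ^ 2 * m + 2 * ε * (1 - ε) * (c * s) + ε ^ 2 * K)
      = (2 * ε * m - 2 * ε * (c * s)) - ε ^ 2 * (m + K) + 2 * (ε ^ 2 * (c * s)) := by ring
  linarith

lemma real_contra {m c K : ℝ} (hc : 0 ≤ c) (hK : 0 ≤ K) (hm : c ^ 2 < m)
    (h : ∀ θ : ℝ, 0 < θ → ∃ j, m ≤ j ∧ j ≤ m + θ ^ 2 ∧ ∀ ε : ℝ, 0 ≤ ε → ε ≤ 1 →
      m ≤ (1 - ε) ^ 2 * j + 2 * ε * (1 - ε) * (c * Real.sqrt j) + ε ^ 2 * K) : False := by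
  have hm0 : 0 < m := lt_of_le_of_lt (sq_nonneg c) hm
  obtain ⟨s, hs⟩ : ∃ s, s = Real.sqrt m := ⟨_, rfl⟩
  have hs2 : s ^ 2 = m := by rw [hs]; exact Real.sq_sqrt hm0.le
  have hs0 : 0 ≤ s := by rw [hs]; exact Real.sqrt_nonneg m
  have hcs : c < s := by
    apply lt_of_pow_lt_pow_left₀ 2 hs0
    rw [hs2]; exact hm
  obtain ⟨γ, hγdef⟩ : ∃ γ, γ = m - c * s := ⟨_, rfl⟩
  have hγ : 0 < γ := by
    have : γ = s * (s - c) := by rw [hγdef, ← hs2]; ring
    rw [this]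
    exact mul_pos (lt_of_le_of_lt hc hcs) (by linarith)
  have hcs0 : 0 ≤ c * s := mul_nonneg hc hs0
  have hden : 0 < m + K + 1 := by linarith
  obtain ⟨ε, hε⟩ : ∃ ε, ε = γ / (m + K + 1) := ⟨_, rfl⟩
  have hε0 : 0 < ε := by rw [hε]; exact div_pos hγ hden
  have hε1 : ε ≤ 1 := by
    rw [hε, div_le_one hden]
    linarith
  have hεm : ε * (m + K) ≤ γ := by
    have : ε * (m + K + 1) = γ := by rw [hε]; field_simp
    linarith
  obtain ⟨θ, hθ⟩ : ∃ θ, θ = min 1 (ε * γ / (2 * (1 + 2 * c))) := ⟨_, rfl⟩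
  have hθ0 : 0 < θ := by
    rw [hθ]; exact lt_min one_pos (div_pos (mul_pos hε0 hγ) (by linarith))
  have hθ1 : θ ≤ 1 := by rw [hθ]; exact min_le_left _ _
  have hθ2 : θ * (1 + 2 * c) ≤ ε * γ / 2 := by
    have h1 : θ ≤ ε * γ / (2 * (1 + 2 * c)) := by rw [hθ]; exact min_le_right _ _
    have h2 : 0 < 1 + 2 * c := by linarith
    calc θ * (1 + 2 * c) ≤ ε * γ / (2 * (1 + 2 * c)) * (1 + 2 * c) :=
          mul_le_mul_of_nonneg_right h1 h2.le
      _ = ε * γ / 2 := by field_simp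
  obtain ⟨j, hj1, hj2, hj3⟩ := h θ hθ0
  have h1 := hj3 ε hε0.le hε1
  have hsj : Real.sqrt j ≤ s + θ := by
    apply Real.sqrt_le_iff.mpr
    constructor
    · linarith
    · nlinarith [mul_nonneg hs0 hθ0.le]
  exact real_contra_aux hc hs0 hγ hγdef hε0 hε1 hεm hθ0 hθ1 hθ2 hj2 hsj h1

theorem opt {V E : Type*} [Fintype V] [NormedAddCommGroup E] [NormedSpace ℝ E] {π : V → ℝ}
    {A : V → V → ℝ} (hπ : ∀ i, 0 ≤ π i) (hA0 : ∀ i j, 0 ≤ A i j) (t : ℝ) (ht : 0 ≤ t) (x : V → E)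
    (C D Δ : ℝ) (hC : 0 ≤ C) (hD : 0 ≤ D)
    (H : ∀ (w : V → ℝ) (v : V → V → ℝ), (∀ i, 0 ≤ w i) → (∀ i j, 0 ≤ v i j) → ∃ y' : V → E,
      (∑ i, π i * w i * ‖x i - y' i‖ + Real.sqrt t * ∑ i, ∑ j, π i * A i j * v i j * ‖y' i - y' j‖
        ≤ C * Real.sqrt (∑ i, π i * w i ^ 2 + ∑ i, ∑ j, π i * A i j * v i j ^ 2) * Real.sqrt D) ∧
      (∀ i, ‖x i - y' i‖ ≤ Δ) ∧ ∀ i j, ‖y' i - y' j‖ ≤ Δ)
    (η : ℝ) (hη : 0 < η) :
    ∃ y : V → E, ∑ i, π i * ‖x i - y i‖ ^ 2 + t * ∑ i, ∑ j, π i * A i j * ‖y i - y j‖ ^ 2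
      ≤ C ^ 2 * D + η := by
  by_contra hcon
  push Not at hcon
  set J : (V → E) → ℝ := fun y =>
    ∑ i, π i * ‖x i - y i‖ ^ 2 + t * ∑ i, ∑ j, π i * A i j * ‖y i - y j‖ ^ 2 with hJ
  have hJ0 : ∀ y, 0 ≤ J y := by
    intro y
    refine add_nonneg (Finset.sum_nonneg fun i _ => mul_nonneg (hπ i) (sq_nonneg _))
      (mul_nonneg ht (Finset.sum_nonneg fun i _ => Finset.sum_nonneg fun j _ =>
        mul_nonneg (mul_nonneg (hπ i) (hA0 i j)) (sq_nonneg _)))
  have hbdd : BddBelow (Set.range J) := ⟨0, by rintro _ ⟨y, rfl⟩; exact hJ0 y⟩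
  set m := ⨅ y, J y with hm
  have hmle : ∀ y, m ≤ J y := fun y => ciInf_le hbdd y
  have hmge : C ^ 2 * D + η ≤ m := le_ciInf fun y => (hcon y).le
  set K : ℝ := ∑ i, π i * Δ ^ 2 + t * ∑ i, ∑ j, π i * A i j * Δ ^ 2 with hK
  have hK0 : 0 ≤ K := by
    refine add_nonneg (Finset.sum_nonneg fun i _ => mul_nonneg (hπ i) (sq_nonneg _))
      (mul_nonneg ht (Finset.sum_nonneg fun i _ => Finset.sum_nonneg fun j _ =>
        mul_nonneg (mul_nonneg (hπ i) (hA0 i j)) (sq_nonneg _)))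
  have hc2 : (C * Real.sqrt D) ^ 2 = C ^ 2 * D := by rw [mul_pow, Real.sq_sqrt hD]
  refine real_contra (m := m) (c := C * Real.sqrt D) (K := K)
    (mul_nonneg hC (Real.sqrt_nonneg _)) hK0 (by rw [hc2]; linarith) ?_
  intro θ hθ
  obtain ⟨y, hy⟩ := exists_lt_of_ciInf_lt (show ⨅ y, J y < m + θ ^ 2 by
    rw [← hm]; linarith [sq_pos_of_pos hθ])
  refine ⟨J y, hmle y, hy.le, ?_⟩
  intro ε hε0 hε1
  obtain ⟨y', hy1, hy2, hy3⟩ := H (fun i => ‖x i - y i‖) (fun i j => Real.sqrt t * ‖y i - y j‖)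
    (fun i => norm_nonneg _) (fun i j => mul_nonneg (Real.sqrt_nonneg _) (norm_nonneg _))
  have hst : Real.sqrt t * Real.sqrt t = t := Real.mul_self_sqrt ht
  have hJy : ∑ i, π i * ‖x i - y i‖ ^ 2 + ∑ i, ∑ j, π i * A i j * (Real.sqrt t * ‖y i - y j‖) ^ 2
      = J y := by
    rw [hJ]
    simp only
    congr 1
    rw [Finset.mul_sum]
    refine Finset.sum_congr rfl fun i _ => ?_
    rw [Finset.mul_sum]
    refine Finset.sum_congr rfl fun j _ => ?_
    rw [mul_pow, sq (Real.sqrt t), hst]; ring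
  rw [hJy] at hy1
  have hlin : ∑ i, π i * (‖x i - y i‖ * ‖x i - y' i‖)
      + t * ∑ i, ∑ j, π i * A i j * (‖y i - y j‖ * ‖y' i - y' j‖)
      ≤ (C * Real.sqrt D) * Real.sqrt (J y) := by
    refine le_trans (le_of_eq ?_) (hy1.trans (le_of_eq (by ring)))
    congr 1
    · refine Finset.sum_congr rfl fun i _ => by ring
    · rw [Finset.mul_sum, Finset.mul_sum]
      refine Finset.sum_congr rfl fun i _ => ?_
      rw [Finset.mul_sum, Finset.mul_sum]
      refine Finset.sum_congr rfl fun j _ => ?_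
      calc t * (π i * A i j * (‖y i - y j‖ * ‖y' i - y' j‖))
          = (Real.sqrt t * Real.sqrt t) * (π i * A i j * (‖y i - y j‖ * ‖y' i - y' j‖)) := by rw [hst]
        _ = _ := by ring
  have hJy' : J y' ≤ K := by
    refine add_le_add (Finset.sum_le_sum fun i _ => mul_le_mul_of_nonneg_left ?_ (hπ i))
      (mul_le_mul_of_nonneg_left (Finset.sum_le_sum fun i _ => Finset.sum_le_sum fun j _ =>
        mul_le_mul_of_nonneg_left ?_ (mul_nonneg (hπ i) (hA0 i j))) ht)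
    · exact pow_le_pow_left₀ (norm_nonneg _) (hy2 i) 2
    · exact pow_le_pow_left₀ (norm_nonneg _) (hy3 i j) 2
  have hsqb : ∀ (a b n : ℝ), 0 ≤ n → 0 ≤ a → 0 ≤ b → n ≤ (1 - ε) * a + ε * b →
      n ^ 2 ≤ (1 - ε) ^ 2 * a ^ 2 + 2 * ε * (1 - ε) * (a * b) + ε ^ 2 * b ^ 2 := by
    intro a b n hn ha hb h
    have := pow_le_pow_left₀ hn h 2
    nlinarith
  have hconv : J (fun i => (1 - ε) • y i + ε • y' i)
      ≤ (1 - ε) ^ 2 * J y + 2 * ε * (1 - ε) * (∑ i, π i * (‖x i - y i‖ * ‖x i - y' i‖)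
      + t * ∑ i, ∑ j, π i * A i j * (‖y i - y j‖ * ‖y' i - y' j‖)) + ε ^ 2 * J y' := by
    have e1 : ∑ i, π i * ‖x i - ((1 - ε) • y i + ε • y' i)‖ ^ 2
        ≤ (1 - ε) ^ 2 * ∑ i, π i * ‖x i - y i‖ ^ 2
          + 2 * ε * (1 - ε) * ∑ i, π i * (‖x i - y i‖ * ‖x i - y' i‖)
          + ε ^ 2 * ∑ i, π i * ‖x i - y' i‖ ^ 2 := by
      rw [Finset.mul_sum, Finset.mul_sum, Finset.mul_sum, ← Finset.sum_add_distrib,
        ← Finset.sum_add_distrib]
      refine Finset.sum_le_sum fun i _ => ?_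
      have h1 : ‖x i - ((1 - ε) • y i + ε • y' i)‖ ≤ (1 - ε) * ‖x i - y i‖ + ε * ‖x i - y' i‖ := by
        have : x i - ((1 - ε) • y i + ε • y' i) = (1 - ε) • (x i - y i) + ε • (x i - y' i) := by
          module
        rw [this]
        refine (norm_add_le _ _).trans (le_of_eq ?_)
        rw [norm_smul, norm_smul, Real.norm_of_nonneg (by linarith), Real.norm_of_nonneg hε0]
      have h2 := hsqb _ _ _ (norm_nonneg _) (norm_nonneg _) (norm_nonneg _) h1
      have h3 := mul_le_mul_of_nonneg_left h2 (hπ i)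
      refine h3.trans (le_of_eq ?_)
      ring
    have e2 : ∑ i, ∑ j, π i * A i j * ‖((1 - ε) • y i + ε • y' i) - ((1 - ε) • y j + ε • y' j)‖ ^ 2
        ≤ (1 - ε) ^ 2 * ∑ i, ∑ j, π i * A i j * ‖y i - y j‖ ^ 2
          + 2 * ε * (1 - ε) * ∑ i, ∑ j, π i * A i j * (‖y i - y j‖ * ‖y' i - y' j‖)
          + ε ^ 2 * ∑ i, ∑ j, π i * A i j * ‖y' i - y' j‖ ^ 2 := by
      rw [Finset.mul_sum, Finset.mul_sum, Finset.mul_sum, ← Finset.sum_add_distrib,
        ← Finset.sum_add_distrib]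
      refine Finset.sum_le_sum fun i _ => ?_
      rw [Finset.mul_sum, Finset.mul_sum, Finset.mul_sum, ← Finset.sum_add_distrib,
        ← Finset.sum_add_distrib]
      refine Finset.sum_le_sum fun j _ => ?_
      have h1 : ‖((1 - ε) • y i + ε • y' i) - ((1 - ε) • y j + ε • y' j)‖
          ≤ (1 - ε) * ‖y i - y j‖ + ε * ‖y' i - y' j‖ := by
        have : ((1 - ε) • y i + ε • y' i) - ((1 - ε) • y j + ε • y' j)
            = (1 - ε) • (y i - y j) + ε • (y' i - y' j) := by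
          module
        rw [this]
        refine (norm_add_le _ _).trans (le_of_eq ?_)
        rw [norm_smul, norm_smul, Real.norm_of_nonneg (by linarith), Real.norm_of_nonneg hε0]
      have h2 := hsqb _ _ _ (norm_nonneg _) (norm_nonneg _) (norm_nonneg _) h1
      have h3 := mul_le_mul_of_nonneg_left h2 (mul_nonneg (hπ i) (hA0 i j))
      refine h3.trans (le_of_eq ?_)
      ring
    have e3 := mul_le_mul_of_nonneg_left e2 ht
    have e4 := add_le_add e1 e3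
    refine e4.trans (le_of_eq ?_)
    rw [hJ]
    ring
  have h1 := hmle (fun i => (1 - ε) • y i + ε • y' i)
  have h2 : 0 ≤ 2 * ε * (1 - ε) := by nlinarith
  calc m ≤ _ := h1.trans hconv
    _ ≤ (1 - ε) ^ 2 * J y + 2 * ε * (1 - ε) * ((C * Real.sqrt D) * Real.sqrt (J y)) + ε ^ 2 * K := by
        have := mul_le_mul_of_nonneg_left hlin h2
        have := mul_le_mul_of_nonneg_left hJy' (sq_nonneg ε)
        linarith

/-! ### The space `ℓ¹` -/

abbrev L1 := lp (fun _ : ℕ => ℝ) 1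

lemma l1_norm (f : L1) : ‖f‖ = ∑' k, |f k| := by
  rw [lp.norm_eq_tsum_rpow (by norm_num)]
  simp

lemma l1_summable (f : L1) : Summable fun k => |f k| := by
  have := lp.memℓp f
  rw [memℓp_gen_iff (by norm_num)] at this
  simpa using this

lemma l1_mem {f : ℕ → ℝ} (h : Summable fun k => |f k|) : Memℓp f 1 := by
  rw [memℓp_gen_iff (by norm_num)]
  simpa using h

/-- Simultaneous smoothing of an `ℓ¹`-valued configuration. -/
theorem l1_smoothing {V : Type} [Fintype V] [DecidableEq V] {π : V → ℝ} {A : V → V → ℝ}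
    (hπ : ∀ x, 0 ≤ π x) (hA0 : ∀ x y, 0 ≤ A x y)
    (hA1 : ∀ x, ∑ y, A x y = 1) (hrev : ∀ x y, π x * A x y = π y * A y x)
    (t : ℕ) (ht : 1 ≤ t) (x : V → L1) {w : V → ℝ} (hw : ∀ i, 0 ≤ w i)
    {v : V → V → ℝ} (hv : ∀ i j, 0 ≤ v i j) :
    ∃ y' : V → L1,
      (∑ i, π i * w i * ‖x i - y' i‖ + Real.sqrt t * ∑ i, ∑ j, π i * A i j * v i j * ‖y' i - y' j‖
        ≤ 400 * Real.sqrt (∑ i, π i * w i ^ 2 + ∑ i, ∑ j, π i * A i j * v i j ^ 2)
          * Real.sqrt ((1 / t) * ∑ k ∈ Icc 1 t, ∑ i, π i *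
              (Matrix.of A ^ k).mulVec (fun j => ‖x j - x i‖ ^ 2) i)) ∧
      (∀ i, ‖x i - y' i‖ ≤ 2 * ∑ j, ‖x j‖) ∧ ∀ i j, ‖y' i - y' j‖ ≤ 2 * ∑ j, ‖x j‖ := by
  obtain ⟨ρ, hρ0, hρ1, hρ2⟩ := smoothing hπ hA0 hA1 hrev hw hv t ht
  choose g hga hgb hgc using fun k : ℕ => hρ1 (fun i => (x i) k)
  have hgbd : ∀ k i, |g k i| ≤ ∑ j, |(x j) k| := by
    intro k i
    obtain ⟨a, ha⟩ := hga k i
    obtain ⟨b, hb⟩ := hgb k i
    have h1 : |(x a) k| ≤ ∑ j, |(x j) k| :=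
      Finset.single_le_sum (f := fun j => |(x j) k|) (fun j _ => abs_nonneg _) (Finset.mem_univ a)
    have h2 : |(x b) k| ≤ ∑ j, |(x j) k| :=
      Finset.single_le_sum (f := fun j => |(x j) k|) (fun j _ => abs_nonneg _) (Finset.mem_univ b)
    rw [abs_le]
    constructor
    · have := neg_abs_le ((x a) k)
      linarith
    · have := le_abs_self ((x b) k)
      linarith
  have hsumx : Summable fun k => ∑ j, |(x j) k| := summable_sum fun j _ => l1_summable (x j)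
  have hsumg : ∀ i, Summable fun k => |g k i| := fun i =>
    Summable.of_nonneg_of_le (fun k => abs_nonneg _) (fun k => hgbd k i) hsumx
  set y' : V → L1 := fun i => ⟨fun k => g k i, l1_mem (hsumg i)⟩ with hy'
  have hy'k : ∀ i k, (y' i) k = g k i := fun i k => rfl
  have hxsum : ∑' k, ∑ j, |(x j) k| = ∑ j, ‖x j‖ := by
    rw [Summable.tsum_finsetSum fun j _ => l1_summable (x j)]
    refine Finset.sum_congr rfl fun j _ => ?_
    rw [l1_norm]
  have hy'norm : ∀ i, ‖y' i‖ ≤ ∑ j, ‖x j‖ := by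
    intro i
    rw [l1_norm, ← hxsum]
    exact Summable.tsum_le_tsum (fun k => hgbd k i) (hsumg i) hsumx
  have hxle : ∀ i, ‖x i‖ ≤ ∑ j, ‖x j‖ := fun i =>
    Finset.single_le_sum (f := fun j => ‖x j‖) (fun j _ => norm_nonneg _) (Finset.mem_univ i)
  refine ⟨y', ?_, ?_, ?_⟩
  · -- the linear estimate
    have hsw : ∀ i, Summable fun k => π i * w i * |(x i) k - g k i| := by
      intro i
      have := (l1_summable (x i - y' i)).mul_left (π i * w i)
      exact this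
    have hsv : ∀ i j, Summable fun k => π i * A i j * v i j * |g k i - g k j| := by
      intro i j
      have := (l1_summable (y' i - y' j)).mul_left (π i * A i j * v i j)
      exact this
    have hsr : ∀ i j, Summable fun k => ρ i j * |(x j) k - (x i) k| := by
      intro i j
      have := (l1_summable (x j - x i)).mul_left (ρ i j)
      exact this
    have hL : ∑ i, π i * w i * ‖x i - y' i‖
        + Real.sqrt t * ∑ i, ∑ j, π i * A i j * v i j * ‖y' i - y' j‖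
        = ∑' k, cost π A w v (Real.sqrt t) (fun i => (x i) k) (g k) := by
      unfold cost
      have s1 : Summable fun k => ∑ i, π i * w i * |(x i) k - g k i| := summable_sum fun i _ => hsw i
      have s2 : Summable fun k => ∑ i, ∑ j, π i * A i j * v i j * |g k i - g k j| :=
        summable_sum fun i _ => summable_sum fun j _ => hsv i j
      rw [Summable.tsum_add s1 (s2.mul_left _), tsum_mul_left,
        Summable.tsum_finsetSum fun i _ => hsw i,
        Summable.tsum_finsetSum fun i _ => summable_sum fun j _ => hsv i j]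
      congr 1
      · refine Finset.sum_congr rfl fun i _ => ?_
        rw [tsum_mul_left, l1_norm]
        rfl
      · congr 1
        refine Finset.sum_congr rfl fun i _ => ?_
        rw [Summable.tsum_finsetSum fun j _ => hsv i j]
        refine Finset.sum_congr rfl fun j _ => ?_
        rw [tsum_mul_left, l1_norm]
        rfl
    have hR : ∑ i, ∑ j, ρ i j * ‖x j - x i‖
        = ∑' k, ∑ i, ∑ j, ρ i j * |(x j) k - (x i) k| := by
      rw [Summable.tsum_finsetSum fun i _ => summable_sum fun j _ => hsr i j]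
      refine Finset.sum_congr rfl fun i _ => ?_
      rw [Summable.tsum_finsetSum fun j _ => hsr i j]
      refine Finset.sum_congr rfl fun j _ => ?_
      rw [tsum_mul_left, l1_norm]
      rfl
    have hle : ∑ i, π i * w i * ‖x i - y' i‖
        + Real.sqrt t * ∑ i, ∑ j, π i * A i j * v i j * ‖y' i - y' j‖
        ≤ ∑ i, ∑ j, ρ i j * ‖x j - x i‖ := by
      rw [hL, hR]
      refine Summable.tsum_le_tsum (fun k => hgc k) ?_ ?_
      · unfold cost
        exact (summable_sum fun i _ => hsw i).add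
          ((summable_sum fun i _ => summable_sum fun j _ => hsv i j).mul_left _)
      · exact summable_sum fun i _ => summable_sum fun j _ => hsr i j
    refine hle.trans ?_
    exact hρ2 (fun i j => ‖x j - x i‖) (fun i => by simp)
  · intro i
    have := norm_sub_le (x i) (y' i)
    linarith [hy'norm i, hxle i]
  · intro i j
    have := norm_sub_le (y' i) (y' j)
    linarith [hy'norm i, hy'norm j]

/-- **Metric Markov cotype 2 of `ℓ¹`**, with explicit constant. -/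
theorem l1_cotype (n t : ℕ) (ht : 1 ≤ t) (π : Fin n → ℝ) (A : Matrix (Fin n) (Fin n) ℝ)
    (hπ : ∀ i, 0 ≤ π i) (hA0 : ∀ i j, 0 ≤ A i j)
    (hA1 : ∀ i, ∑ j, A i j = 1) (hrev : ∀ i j, π i * A i j = π j * A j i) (x : Fin n → L1) :
    ∃ y : Fin n → L1, ∑ i, π i * dist (x i) (y i) ^ 2
        + t * ∑ i, ∑ j, π i * A i j * dist (y i) (y j) ^ 2
      ≤ 401 ^ 2 * ∑ i, ∑ j, π i * ((1 / (t : ℝ)) • ∑ s ∈ Icc 1 t, A ^ s) i j * dist (x i) (x j) ^ 2 := by
  have ht0 : (0:ℝ) < t := by exact_mod_cast ht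
  set D : ℝ := ∑ i, ∑ j, π i * ((1 / (t : ℝ)) • ∑ s ∈ Icc 1 t, A ^ s) i j * dist (x i) (x j) ^ 2 with hD
  have hA : Matrix.of (fun i j => A i j) = A := rfl
  have hD2 : (1 / t) * ∑ k ∈ Icc 1 t, ∑ i, π i *
              (Matrix.of (fun i j => A i j) ^ k).mulVec (fun j => ‖x j - x i‖ ^ 2) i = D := by
    rw [hD, hA, Finset.sum_comm, Finset.mul_sum]
    refine Finset.sum_congr rfl fun i _ => ?_
    simp only [Matrix.smul_apply, Matrix.sum_apply, smul_eq_mul, Matrix.mulVec, dotProduct,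
      Finset.mul_sum, Finset.sum_mul]
    rw [Finset.sum_comm]
    refine Finset.sum_congr rfl fun j _ => Finset.sum_congr rfl fun k _ => ?_
    rw [dist_eq_norm, norm_sub_rev]
    ring
  have hpow : ∀ k i j, 0 ≤ (A ^ k) i j := by
    intro k
    induction k with
    | zero =>
      intro i j
      simp only [pow_zero, Matrix.one_apply]
      split_ifs <;> norm_num
    | succ k ih =>
      intro i j
      rw [pow_succ, Matrix.mul_apply]
      exact Finset.sum_nonneg fun l _ => mul_nonneg (ih i l) (hA0 l j)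
  have havg : ∀ i j, (1 / (t:ℝ)) * A i j ≤ ((1 / (t : ℝ)) • ∑ s ∈ Icc 1 t, A ^ s) i j := by
    intro i j
    simp only [Matrix.smul_apply, Matrix.sum_apply, smul_eq_mul]
    apply mul_le_mul_of_nonneg_left _ (by positivity)
    have := Finset.single_le_sum (f := fun s => (A ^ s) i j) (s := Icc 1 t)
      (fun s _ => hpow s i j) (Finset.mem_Icc.mpr ⟨le_rfl, ht⟩)
    simpa using this
  have havg0 : ∀ i j, 0 ≤ ((1 / (t : ℝ)) • ∑ s ∈ Icc 1 t, A ^ s) i j := fun i j =>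
    (mul_nonneg (by positivity) (hA0 i j)).trans (havg i j)
  have hD0 : 0 ≤ D := Finset.sum_nonneg fun i _ => Finset.sum_nonneg fun j _ =>
    mul_nonneg (mul_nonneg (hπ i) (havg0 i j)) (sq_nonneg _)
  rcases hD0.eq_or_lt with hDz | hDpos
  · -- degenerate case
    refine ⟨x, ?_⟩
    rw [← hDz]
    have h1 : ∑ i, ∑ j, π i * A i j * dist (x i) (x j) ^ 2 ≤ t * D := by
      rw [hD, Finset.mul_sum]
      refine Finset.sum_le_sum fun i _ => ?_
      rw [Finset.mul_sum]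
      refine Finset.sum_le_sum fun j _ => ?_
      have h2 : A i j ≤ t * ((1 / (t : ℝ)) • ∑ s ∈ Icc 1 t, A ^ s) i j := by
        have := mul_le_mul_of_nonneg_left (havg i j) ht0.le
        calc A i j = t * ((1 / (t:ℝ)) * A i j) := by field_simp
          _ ≤ _ := this
      have h3 : 0 ≤ π i * dist (x i) (x j) ^ 2 := mul_nonneg (hπ i) (sq_nonneg _)
      have := mul_le_mul_of_nonneg_left h2 h3
      nlinarith [this]
    rw [← hDz, mul_zero] at h1
    simp only [dist_self]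
    have : (t:ℝ) * ∑ i, ∑ j, π i * A i j * dist (x i) (x j) ^ 2 ≤ 0 :=
      mul_nonpos_of_nonneg_of_nonpos ht0.le h1
    simpa using this
  · have hopt := opt (A := fun i j => A i j) hπ hA0 (t : ℝ) ht0.le x 400 D (2 * ∑ j, ‖x j‖)
      (by norm_num) hD0 (fun w v hw hv => by
        obtain ⟨y', h1, h2, h3⟩ := l1_smoothing (A := fun i j => A i j) hπ hA0 hA1 hrev t ht x hw hv
        rw [hD2] at h1
        exact ⟨y', h1, h2, h3⟩) D hDpos
    obtain ⟨y, hy⟩ := hopt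
    refine ⟨y, ?_⟩
    simp only [dist_eq_norm]
    refine hy.trans ?_
    nlinarith

end Vale.Agent.H14.Cotype
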