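import Vale.Agent.H14.Cotype.ChainMain

set_option linter.unusedSectionVars false

open Finset

namespace Vale.Agent.H14.Cotype

variable {V : Type} [Fintype V] [DecidableEq V]

section heat
variable {A : V → V → ℝ}

lemma heat_succ' (hA1 : ∀ x, ∑ y, A x y = 1) (f : V → ℝ) (n : ℕ) (x : V) :
    heat A f (n + 1) x = 1 / 2 * heat A f n x + 1 / 2 * ∑ y, A x y * heat A f n y := by
  simp only [heat]
  have : ∀ y, A x y * (1 / 2 * heat A f n x + 1 / 2 * heat A f n y)
      = A x y * (1 / 2 * heat A f n x) + 1 / 2 * (A x y * heat A f n y) := by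
    intro y; ring
  simp only [this]
  rw [Finset.sum_add_distrib, ← Finset.sum_mul, hA1, one_mul, ← Finset.mul_sum]

lemma heat_mono (hA0 : ∀ x y, 0 ≤ A x y) {f g : V → ℝ} (h : ∀ x, f x ≤ g x) (n : ℕ) (x : V) :
    heat A f n x ≤ heat A g n x := by
  induction n generalizing x with
  | zero => exact h x
  | succ n ih =>
    simp only [heat]
    refine Finset.sum_le_sum fun y _ => mul_le_mul_of_nonneg_left ?_ (hA0 x y)
    linarith [ih x, ih y]

lemma heat_add (f g : V → ℝ) (n : ℕ) (x : V) :
    heat A (fun y => f y + g y) n x = heat A f n x + heat A g n x := by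
  induction n generalizing x with
  | zero => rfl
  | succ n ih =>
    simp only [heat]
    rw [← Finset.sum_add_distrib]
    refine Finset.sum_congr rfl fun y _ => ?_
    rw [ih x, ih y]; ring

lemma heat_smul (c : ℝ) (f : V → ℝ) (n : ℕ) (x : V) :
    heat A (fun y => c * f y) n x = c * heat A f n x := by
  induction n generalizing x with
  | zero => rfl
  | succ n ih =>
    simp only [heat]
    rw [Finset.mul_sum]
    refine Finset.sum_congr rfl fun y _ => ?_
    rw [ih x, ih y]; ring

lemma heat_const (hA1 : ∀ x, ∑ y, A x y = 1) (c : ℝ) (n : ℕ) (x : V) :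
    heat A (fun _ => c) n x = c := by
  induction n generalizing x with
  | zero => rfl
  | succ n ih =>
    rw [heat_succ' hA1]
    simp only [ih]
    rw [← Finset.sum_mul, hA1]; ring

lemma heat_sum {ι : Type*} (s : Finset ι) (f : ι → V → ℝ) (n : ℕ) (x : V) :
    heat A (fun y => ∑ i ∈ s, f i y) n x = ∑ i ∈ s, heat A (f i) n x := by
  classical
  induction s using Finset.induction_on with
  | empty =>
    simp only [Finset.sum_empty]
    have := heat_smul (A := A) 0 (fun _ => (0:ℝ)) n x
    simpa using this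
  | insert a s ha ih =>
    simp only [Finset.sum_insert ha]
    rw [heat_add, ih]

/-- heat kernel -/
noncomputable def hk (A : V → V → ℝ) (n : ℕ) (x j : V) : ℝ :=
  heat A (fun i => if i = j then 1 else 0) n x

lemma heat_eq_hk (f : V → ℝ) (n : ℕ) (x : V) : heat A f n x = ∑ j, f j * hk A n x j := by
  have h1 : f = fun i => ∑ j, f j * (if i = j then 1 else 0) := by
    funext i; simp
  conv_lhs => rw [h1]
  rw [heat_sum]
  refine Finset.sum_congr rfl fun j _ => ?_
  rw [heat_smul]; rfl

lemma hk_nonneg (hA0 : ∀ x y, 0 ≤ A x y) (hA1 : ∀ x, ∑ y, A x y = 1) (n : ℕ) (x j : V) :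
    0 ≤ hk A n x j := by
  unfold hk
  refine (heat_mem hA0 hA1 (a := 0) (b := 1) (fun i => ?_) (fun i => ?_) n x).1 <;>
  split_ifs <;> norm_num

lemma hk_sum (hA1 : ∀ x, ∑ y, A x y = 1) (n : ℕ) (x : V) : ∑ j, hk A n x j = 1 := by
  have := heat_eq_hk (A := A) (fun _ => 1) n x
  rw [heat_const hA1] at this
  simpa using this.symm

lemma heat_sq_le (hA0 : ∀ x y, 0 ≤ A x y) (hA1 : ∀ x, ∑ y, A x y = 1) (f : V → ℝ) (n : ℕ) (x : V) :
    (heat A f n x) ^ 2 ≤ heat A (fun j => f j ^ 2) n x := by
  rw [heat_eq_hk, heat_eq_hk]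
  have h := Finset.sum_mul_sq_le_sq_mul_sq Finset.univ
    (fun j => Real.sqrt (hk A n x j)) (fun j => f j * Real.sqrt (hk A n x j))
  have h1 : ∀ j, Real.sqrt (hk A n x j) * (f j * Real.sqrt (hk A n x j)) = f j * hk A n x j := by
    intro j
    have := Real.mul_self_sqrt (hk_nonneg hA0 hA1 n x j)
    calc _ = f j * (Real.sqrt (hk A n x j) * Real.sqrt (hk A n x j)) := by ring
      _ = _ := by rw [this]
  have h2 : ∀ j, Real.sqrt (hk A n x j) ^ 2 = hk A n x j := fun j =>
    Real.sq_sqrt (hk_nonneg hA0 hA1 n x j)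
  simp only [h1, mul_pow, h2, hk_sum hA1, one_mul] at h
  exact h

/-- comparison of the lazy semigroup with the original one -/
lemma sum_heat_le (hA0 : ∀ x y, 0 ≤ A x y) (hA1 : ∀ x, ∑ y, A x y = 1)
    {f : V → ℝ} (hf : ∀ x, 0 ≤ f x) (t : ℕ) :
    ∀ x, ∑ n ∈ range (t + 1), heat A f n x ≤ 2 * ∑ k ∈ range (t + 1), (Matrix.of A ^ k).mulVec f x := by
  induction t with
  | zero =>
    intro x
    simp [heat]
    linarith [hf x]
  | succ t ih =>
    intro x
    have hnn : ∀ n x, 0 ≤ heat A f n x := by
      intro n x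
      have := heat_mono hA0 (f := fun _ => 0) (g := f) hf n x
      rwa [heat_const hA1] at this
    set S : V → ℝ := fun x => ∑ n ∈ range (t + 1), heat A f n x with hS
    have h1 : ∑ n ∈ range (t + 1 + 1), heat A f n x
        = f x + (1 / 2 * S x + 1 / 2 * ∑ y, A x y * S y) := by
      rw [Finset.sum_range_succ']
      have h2 : ∑ k ∈ range (t + 1), heat A f (k + 1) x
          = 1 / 2 * S x + 1 / 2 * ∑ y, A x y * S y := by
        simp only [heat_succ' hA1]
        rw [Finset.sum_add_distrib, ← Finset.mul_sum, ← Finset.mul_sum, Finset.sum_comm]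
        simp only [hS, Finset.mul_sum]
      rw [h2]
      simp only [heat]
      ring
    have h3 : S x ≤ ∑ n ∈ range (t + 1 + 1), heat A f n x := by
      rw [Finset.sum_range_succ]
      linarith [hnn (t + 1) x]
    have h4 : ∑ n ∈ range (t + 1 + 1), heat A f n x ≤ 2 * f x + ∑ y, A x y * S y := by
      linarith
    refine h4.trans ?_
    have h5 : ∑ y, A x y * S y ≤ ∑ y, A x y * (2 * ∑ k ∈ range (t + 1), (Matrix.of A ^ k).mulVec f y) :=
      Finset.sum_le_sum fun y _ => mul_le_mul_of_nonneg_left (ih y) (hA0 x y)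
    have h6 : ∑ k ∈ range (t + 1 + 1), (Matrix.of A ^ k).mulVec f x
        = (∑ y, A x y * ∑ k ∈ range (t + 1), (Matrix.of A ^ k).mulVec f y) + f x := by
      rw [Finset.sum_range_succ']
      congr 1
      · simp only [Finset.mul_sum]
        rw [Finset.sum_comm]
        refine Finset.sum_congr rfl fun k _ => ?_
        rw [pow_succ', ← Matrix.mulVec_mulVec]
        rfl
      · simp
    rw [h6]
    have h7 : ∑ y, A x y * (2 * ∑ k ∈ range (t + 1), (Matrix.of A ^ k).mulVec f y)
        = 2 * ∑ y, A x y * ∑ k ∈ range (t + 1), (Matrix.of A ^ k).mulVec f y := by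
      rw [Finset.mul_sum]
      refine Finset.sum_congr rfl fun y _ => ?_
      ring
    linarith

end heat

/-- Cost functional for scalar functions. -/
noncomputable def cost (π : V → ℝ) (A : V → V → ℝ) (w : V → ℝ) (v : V → V → ℝ) (r : ℝ)
    (F g : V → ℝ) : ℝ :=
  ∑ x, π x * w x * |F x - g x| + r * ∑ x, ∑ y, π x * A x y * v x y * |g x - g y|

/-- Layer-cake induction for functions on a finite set. -/
lemma layer {P : (V → ℝ) → Prop} (hconst : ∀ F : V → ℝ, (∀ x y, F x = F y) → P F)
    (hstep : ∀ (F F2 f : V → ℝ) (c : ℝ), 0 ≤ c → (∀ x, f x = 0 ∨ f x = 1) →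
      (∀ x, F x = F2 x + c * f x - c) → (∀ x j, |F j - F x| = |F2 j - F2 x| + c * |f j - f x|) →
      (∃ x0, ∀ x, F x0 + c ≤ F2 x) → (∀ x, ∃ y, F2 x ≤ F y) → P F2 → P F) :
    ∀ F, P F := by
  suffices h : ∀ (n : ℕ) (F : V → ℝ), (Finset.univ.image F).card ≤ n → P F from
    fun F => h _ F le_rfl
  intro n
  induction n with
  | zero =>
    intro F hF
    refine hconst F fun x y => ?_
    have : Finset.univ.image F = ∅ := Finset.card_eq_zero.mp (Nat.le_zero.mp hF)
    have hx : F x ∈ Finset.univ.image F := Finset.mem_image_of_mem _ (Finset.mem_univ x)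
    rw [this] at hx
    simp at hx
  | succ n ih =>
    intro F hF
    by_cases hc : ∀ x y, F x = F y
    · exact hconst F hc
    push Not at hc
    obtain ⟨u, u', huu⟩ := hc
    have : Nonempty V := ⟨u⟩
    obtain ⟨x0, hx0⟩ := Finite.exists_min F
    -- second smallest value
    have hne : (Finset.univ.filter fun x => F x0 < F x).Nonempty := by
      by_contra h
      rw [Finset.not_nonempty_iff_eq_empty, Finset.filter_eq_empty_iff] at h
      apply huu
      have h1 := h (Finset.mem_univ u)
      have h2 := h (Finset.mem_univ u')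
      have := hx0 u
      have := hx0 u'
      linarith
    obtain ⟨x1, hx1, hx1'⟩ := Finset.exists_min_image _ F hne
    rw [Finset.mem_filter] at hx1
    have hlt := hx1.2
    have hmin : ∀ x, F x0 < F x → F x1 ≤ F x := fun x hx =>
      hx1' x (Finset.mem_filter.mpr ⟨Finset.mem_univ x, hx⟩)
    set F2 : V → ℝ := fun x => max (F x) (F x1) with hF2
    set f : V → ℝ := fun x => if F x0 < F x then 1 else 0 with hf
    have hcase : ∀ x, (F x = F x0 ∧ F2 x = F x1 ∧ f x = 0) ∨ (F x1 ≤ F x ∧ F2 x = F x ∧ f x = 1) := by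
      intro x
      rcases lt_or_ge (F x0) (F x) with h | h
      · right
        have := hmin x h
        refine ⟨this, max_eq_left this, ?_⟩
        simp [hf, h]
      · left
        have h2 : F x = F x0 := le_antisymm h (hx0 x)
        refine ⟨h2, ?_, ?_⟩
        · simp only [hF2]; rw [h2]; exact max_eq_right hlt.le
        · simp [hf, h2]
    refine hstep F F2 f (F x1 - F x0) (by linarith) ?_ ?_ ?_ ?_ ?_ ?_
    · intro x
      rcases hcase x with h | h
      · exact Or.inl h.2.2
      · exact Or.inr h.2.2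
    · intro x
      rcases hcase x with h | h
      · rw [h.1, h.2.1, h.2.2]; ring
      · rw [h.2.1, h.2.2]; ring
    · intro x j
      rcases hcase x with h | h <;> rcases hcase j with h' | h'
      · rw [h.1, h.2.1, h.2.2, h'.1, h'.2.1, h'.2.2]; simp
      · rw [h.1, h.2.1, h.2.2, h'.2.1, h'.2.2]
        rw [abs_of_nonneg (by linarith [h'.1]), abs_of_nonneg (by linarith [h'.1])]
        norm_num
      · rw [h.2.1, h.2.2, h'.1, h'.2.1, h'.2.2]
        rw [abs_of_nonpos (by linarith [h.1]), abs_of_nonpos (by linarith [h.1])]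
        norm_num
      · rw [h.2.1, h.2.2, h'.2.1, h'.2.2]; simp
    · refine ⟨x0, fun x => ?_⟩
      have : F x1 ≤ F2 x := le_max_right _ _
      linarith
    · intro x
      rcases hcase x with h | h
      · exact ⟨x1, h.2.1.le⟩
      · exact ⟨x, h.2.1.le⟩
    · apply ih
      have hsub : Finset.univ.image F2 ⊆ (Finset.univ.image F).erase (F x0) := by
        intro z hz
        rw [Finset.mem_image] at hz
        obtain ⟨x, -, rfl⟩ := hz
        rw [Finset.mem_erase]
        rcases hcase x with h | h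
        · rw [h.2.1]
          exact ⟨hlt.ne', Finset.mem_image_of_mem _ (Finset.mem_univ _)⟩
        · rw [h.2.1]
          exact ⟨(hlt.trans_le h.1).ne', Finset.mem_image_of_mem _ (Finset.mem_univ _)⟩
      have h1 := Finset.card_le_card hsub
      have h2 : F x0 ∈ Finset.univ.image F := Finset.mem_image_of_mem _ (Finset.mem_univ _)
      rw [Finset.card_erase_of_mem h2] at h1
      omega

end Vale.Agent.H14.Cotype
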