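import Vale.Agent.H14.Cotype.Smooth

set_option linter.unusedSectionVars false

open Finset

namespace Vale.Agent.H14.Cotype

variable {V : Type} [Fintype V] [DecidableEq V]

lemma sum_weights (G : ℕ → ℝ) (t : ℕ) :
    ∑ n ∈ range t, ((t : ℝ) - n) * G n = ∑ m ∈ range t, ∑ n ∈ range (m + 1), G n := by
  induction t with
  | zero => simp
  | succ t ih =>
    rw [Finset.sum_range_succ (fun m => ∑ n ∈ range (m + 1), G n), ← ih]
    have h1 : ∀ n, (((t + 1 : ℕ) : ℝ) - n) * G n = ((t : ℝ) - n) * G n + G n := by
      intro n; push_cast; ring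
    simp only [h1]
    rw [Finset.sum_add_distrib, Finset.sum_range_succ (fun n => ((t : ℝ) - n) * G n)]
    ring

/-- averaging weights -/
noncomputable def cw (t n : ℕ) : ℝ := 2 * ((t : ℝ) - n) / (t * (t + 1))

lemma cw_nonneg {t n : ℕ} (h : n < t) : 0 ≤ cw t n := by
  unfold cw
  have : (n : ℝ) ≤ t := by exact_mod_cast h.le
  apply div_nonneg
  · linarith
  · positivity

lemma cw_le {t n : ℕ} (ht : 1 ≤ t) : cw t n ≤ 2 / t := by
  unfold cw
  have h0 : (0:ℝ) < t := by exact_mod_cast ht
  have hn : (0:ℝ) ≤ n := Nat.cast_nonneg n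
  rw [div_le_div_iff₀ (by positivity) h0]
  nlinarith [mul_nonneg h0.le hn]

lemma cw_sum {t : ℕ} (ht : 1 ≤ t) : ∑ n ∈ range t, cw t n = 1 := by
  have h0 : (0:ℝ) < t := by exact_mod_cast ht
  have h1 : ∑ n ∈ range t, ((t : ℝ) - n) * 1 = ∑ m ∈ range t, ∑ n ∈ range (m + 1), (1:ℝ) :=
    sum_weights (fun _ => 1) t
  have h2 : ∑ m ∈ range t, ∑ n ∈ range (m + 1), (1:ℝ) = t * (t + 1) / 2 := by
    have : ∀ t : ℕ, ∑ m ∈ range t, ∑ n ∈ range (m + 1), (1:ℝ) = t * (t + 1) / 2 := by
      intro t
      induction t with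
      | zero => simp
      | succ t ih =>
        rw [Finset.sum_range_succ, ih]
        simp
        ring
    exact this t
  have h3 : ∑ n ∈ range t, cw t n = (2 / (t * (t + 1))) * ∑ n ∈ range t, ((t : ℝ) - n) * 1 := by
    rw [Finset.mul_sum]
    refine Finset.sum_congr rfl fun n _ => ?_
    unfold cw; ring
  rw [h3, h1, h2]
  field_simp

lemma Phi_dist {f h : ℝ} (hf : f = 0 ∨ f = 1) (h0 : 0 ≤ h) (h1 : h ≤ 1) :
    |f - Phi h| ≤ 2 * |f - h| := by
  rcases hf with rfl | rfl
  · rw [zero_sub, zero_sub, abs_neg, abs_neg, abs_of_nonneg (Phi_nonneg h), abs_of_nonneg h0]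
    unfold Phi
    apply max_le (by linarith)
    exact (min_le_right _ _).trans (by linarith)
  · rw [abs_of_nonneg (by linarith [Phi_le_one h]), abs_of_nonneg (by linarith)]
    have : 2 * h - 1 ≤ Phi h := by
      unfold Phi
      apply le_max_of_le_right
      apply le_min
      · linarith
      · linarith
    linarith

theorem smoothing {π : V → ℝ} {A : V → V → ℝ} (hπ : ∀ x, 0 ≤ π x) (hA0 : ∀ x y, 0 ≤ A x y)
    (hA1 : ∀ x, ∑ y, A x y = 1) (hrev : ∀ x y, π x * A x y = π y * A y x)
    {w : V → ℝ} (hw : ∀ x, 0 ≤ w x)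
    {v : V → V → ℝ} (hv : ∀ x y, 0 ≤ v x y) (t : ℕ) (ht : 1 ≤ t) :
    ∃ ρ : V → V → ℝ, (∀ x j, 0 ≤ ρ x j) ∧
      (∀ F : V → ℝ, ∃ g : V → ℝ, (∀ x, ∃ a, F a ≤ g x) ∧ (∀ x, ∃ b, g x ≤ F b) ∧
        cost π A w v (Real.sqrt t) F g ≤ ∑ x, ∑ j, ρ x j * |F j - F x|) ∧
      (∀ z : V → V → ℝ, (∀ x, z x x = 0) →
        ∑ x, ∑ j, ρ x j * z x j ≤
          400 * Real.sqrt (∑ x, π x * w x ^ 2 + ∑ x, ∑ y, π x * A x y * v x y ^ 2)
          * Real.sqrt ((1 / t) * ∑ k ∈ Icc 1 t, ∑ x, π x * (Matrix.of A ^ k).mulVec (fun j => z x j ^ 2) x)) := by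
  have ht0 : (0:ℝ) < t := by exact_mod_cast ht
  have hcm := fun m : ℕ => chain_main hπ hA0 hA1 hrev hv (m + 1) (by omega)
  choose ρv hρv0 hρv1 hρv2 using hcm
  set ρ : V → V → ℝ := fun x j =>
    (4 / t) * ∑ n ∈ range t, π x * w x * hk A n x j + (64 / t) * ∑ m ∈ range t, ρv m x j with hρ
  have hρ0 : ∀ x j, 0 ≤ ρ x j := by
    intro x j
    refine add_nonneg (mul_nonneg (by positivity) ?_) (mul_nonneg (by positivity) ?_)
    · exact Finset.sum_nonneg fun n _ => mul_nonneg (mul_nonneg (hπ x) (hw x)) (hk_nonneg hA0 hA1 n x j)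
    · exact Finset.sum_nonneg fun m _ => hρv0 m x j
  have hexp : ∀ z : V → V → ℝ, ∑ x, ∑ j, ρ x j * z x j
      = (4 / t) * ∑ n ∈ range t, ∑ x, π x * w x * heat A (z x) n x
        + (64 / t) * ∑ m ∈ range t, ∑ x, ∑ j, ρv m x j * z x j := by
    intro z
    have h1 : ∀ x j, ρ x j * z x j = (4 / t) * ∑ n ∈ range t, π x * w x * (z x j * hk A n x j)
        + (64 / t) * ∑ m ∈ range t, ρv m x j * z x j := by
      intro x j
      rw [hρ]
      simp only
      rw [add_mul, mul_assoc, mul_assoc, Finset.sum_mul, Finset.sum_mul]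
      congr 2
      refine Finset.sum_congr rfl fun n _ => ?_
      ring
    have h2 : ∀ x, ∑ j, ρ x j * z x j
        = (4 / t) * ∑ n ∈ range t, π x * w x * heat A (z x) n x
          + (64 / t) * ∑ m ∈ range t, ∑ j, ρv m x j * z x j := by
      intro x
      simp only [h1]
      rw [Finset.sum_add_distrib, ← Finset.mul_sum, ← Finset.mul_sum]
      congr 2
      · rw [Finset.sum_comm]
        refine Finset.sum_congr rfl fun n _ => ?_
        rw [heat_eq_hk, Finset.mul_sum]
      · rw [Finset.sum_comm]
    simp only [h2]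
    rw [Finset.sum_add_distrib, ← Finset.mul_sum, ← Finset.mul_sum]
    congr 2
    · rw [Finset.sum_comm]
    · rw [Finset.sum_comm]
  refine ⟨ρ, hρ0, ?_, ?_⟩
  · -- smoothing of scalar functions
    -- first for indicator functions
    have hind : ∀ f : V → ℝ, (∀ x, f x = 0 ∨ f x = 1) → ∃ g : V → ℝ, (∀ x, 0 ≤ g x) ∧ (∀ x, g x ≤ 1) ∧
        cost π A w v (Real.sqrt t) f g ≤ ∑ x, ∑ j, ρ x j * |f j - f x| := by
      intro f hf
      have hf0 : ∀ x, 0 ≤ f x := fun x => by rcases hf x with h | h <;> rw [h]; norm_num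
      have hf1 : ∀ x, f x ≤ 1 := fun x => by rcases hf x with h | h <;> rw [h]; norm_num
      refine ⟨fun x => ∑ n ∈ range t, cw t n * Phi (heat A f n x), ?_, ?_, ?_⟩
      · intro x
        exact Finset.sum_nonneg fun n hn => mul_nonneg (cw_nonneg (Finset.mem_range.mp hn)) (Phi_nonneg _)
      · intro x
        calc ∑ n ∈ range t, cw t n * Phi (heat A f n x) ≤ ∑ n ∈ range t, cw t n * 1 :=
              Finset.sum_le_sum fun n hn => mul_le_mul_of_nonneg_left (Phi_le_one _)
                (cw_nonneg (Finset.mem_range.mp hn))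
          _ = 1 := by simp only [mul_one]; exact cw_sum ht
      · rw [hexp]
        unfold cost
        refine add_le_add ?_ ?_
        · -- w part
          have h1 : ∀ x, |f x - ∑ n ∈ range t, cw t n * Phi (heat A f n x)|
              ≤ ∑ n ∈ range t, (2 / t) * (2 * heat A (fun j => |f j - f x|) n x) := by
            intro x
            have h2 : f x - ∑ n ∈ range t, cw t n * Phi (heat A f n x)
                = ∑ n ∈ range t, cw t n * (f x - Phi (heat A f n x)) := by
              simp only [mul_sub]
              rw [Finset.sum_sub_distrib, ← Finset.sum_mul, cw_sum ht, one_mul]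
            rw [h2]
            refine (Finset.abs_sum_le_sum_abs _ _).trans ?_
            refine Finset.sum_le_sum fun n hn => ?_
            rw [abs_mul, abs_of_nonneg (cw_nonneg (Finset.mem_range.mp hn))]
            have hm := heat_mem hA0 hA1 hf0 hf1 n x
            have h3 : |f x - heat A f n x| ≤ heat A (fun j => |f j - f x|) n x := by
              have h4 : heat A (fun j => f j - f x) n x = heat A f n x - f x := by
                have := heat_add (A := A) f (fun _ => - f x) n x
                rw [heat_const hA1] at this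
                simpa [sub_eq_add_neg] using this
              have h5 : heat A (fun j => -(f j - f x)) n x = -(heat A f n x - f x) := by
                have := heat_smul (A := A) (-1) (fun j => f j - f x) n x
                rw [h4] at this
                simpa using this
              rw [abs_sub_comm]
              apply abs_le'.mpr
              constructor
              · rw [← h4]
                exact heat_mono hA0 (fun j => le_abs_self _) n x
              · rw [← h5]
                exact heat_mono hA0 (fun j => neg_le_abs _) n x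
            have h6 : |f x - Phi (heat A f n x)| ≤ 2 * heat A (fun j => |f j - f x|) n x :=
              (Phi_dist (hf x) hm.1 hm.2).trans (by linarith)
            calc cw t n * |f x - Phi (heat A f n x)|
                ≤ cw t n * (2 * heat A (fun j => |f j - f x|) n x) :=
                  mul_le_mul_of_nonneg_left h6 (cw_nonneg (Finset.mem_range.mp hn))
              _ ≤ _ := mul_le_mul_of_nonneg_right (cw_le ht) ((abs_nonneg _).trans h6)
          calc ∑ x, π x * w x * |f x - ∑ n ∈ range t, cw t n * Phi (heat A f n x)|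
              ≤ ∑ x, π x * w x * ∑ n ∈ range t, (2 / t) * (2 * heat A (fun j => |f j - f x|) n x) :=
                Finset.sum_le_sum fun x _ => mul_le_mul_of_nonneg_left (h1 x) (mul_nonneg (hπ x) (hw x))
            _ = _ := by
                simp only [Finset.mul_sum]
                rw [Finset.sum_comm]
                refine Finset.sum_congr rfl fun n _ => Finset.sum_congr rfl fun x _ => ?_
                ring
        · -- v part
          set G : ℕ → ℝ := fun n =>
            ∑ x, ∑ y, π x * A x y * (v x y * |Phi (heat A f n x) - Phi (heat A f n y)|) with hG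
          have h1 : ∑ x, ∑ y, π x * A x y * v x y *
              |∑ n ∈ range t, cw t n * Phi (heat A f n x) - ∑ n ∈ range t, cw t n * Phi (heat A f n y)|
              ≤ ∑ n ∈ range t, cw t n * G n := by
            have h2 : ∀ x y, π x * A x y * v x y *
                |∑ n ∈ range t, cw t n * Phi (heat A f n x) - ∑ n ∈ range t, cw t n * Phi (heat A f n y)|
                ≤ ∑ n ∈ range t, cw t n * (π x * A x y * (v x y * |Phi (heat A f n x) - Phi (heat A f n y)|)) := by
              intro x y
              rw [← Finset.sum_sub_distrib]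
              have h3 : |∑ n ∈ range t, (cw t n * Phi (heat A f n x) - cw t n * Phi (heat A f n y))|
                  ≤ ∑ n ∈ range t, cw t n * |Phi (heat A f n x) - Phi (heat A f n y)| := by
                refine (Finset.abs_sum_le_sum_abs _ _).trans ?_
                refine Finset.sum_le_sum fun n hn => ?_
                rw [← mul_sub, abs_mul, abs_of_nonneg (cw_nonneg (Finset.mem_range.mp hn))]
              have h4 : 0 ≤ π x * A x y * v x y := mul_nonneg (mul_nonneg (hπ x) (hA0 x y)) (hv x y)
              refine (mul_le_mul_of_nonneg_left h3 h4).trans (le_of_eq ?_)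
              rw [Finset.mul_sum]
              refine Finset.sum_congr rfl fun n _ => ?_
              ring
            refine (Finset.sum_le_sum fun x _ => Finset.sum_le_sum fun y _ => h2 x y).trans (le_of_eq ?_)
            simp only [hG, Finset.mul_sum]
            have : ∀ x, ∑ y, ∑ n ∈ range t, cw t n * (π x * A x y * (v x y * |Phi (heat A f n x) - Phi (heat A f n y)|))
                = ∑ n ∈ range t, ∑ y, cw t n * (π x * A x y * (v x y * |Phi (heat A f n x) - Phi (heat A f n y)|)) :=
              fun x => Finset.sum_comm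
            simp only [this]
            rw [Finset.sum_comm]
          have h5 : ∑ n ∈ range t, cw t n * G n
              = (2 / (t * (t + 1))) * ∑ m ∈ range t, ∑ n ∈ range (m + 1), G n := by
            rw [← sum_weights, Finset.mul_sum]
            refine Finset.sum_congr rfl fun n _ => ?_
            unfold cw; ring
          have h6 : ∀ m ∈ range t, ∑ n ∈ range (m + 1), G n
              ≤ 32 * Real.sqrt t * ∑ x, ∑ j, ρv m x j * |f j - f x| := by
            intro m hm
            have h7 := hρv1 m f hf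
            refine h7.trans ?_
            have h8 : Real.sqrt ((m + 1 : ℕ) : ℝ) ≤ Real.sqrt t := by
              apply Real.sqrt_le_sqrt
              exact_mod_cast Finset.mem_range.mp hm
            have h9 : 0 ≤ ∑ x, ∑ j, ρv m x j * |f j - f x| :=
              Finset.sum_nonneg fun x _ => Finset.sum_nonneg fun j _ =>
                mul_nonneg (hρv0 m x j) (abs_nonneg _)
            exact mul_le_mul_of_nonneg_right (by linarith) h9
          have h10 : ∑ m ∈ range t, ∑ n ∈ range (m + 1), G n
              ≤ 32 * Real.sqrt t * ∑ m ∈ range t, ∑ x, ∑ j, ρv m x j * |f j - f x| := by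
            rw [Finset.mul_sum]
            exact Finset.sum_le_sum h6
          set R : ℝ := ∑ m ∈ range t, ∑ x, ∑ j, ρv m x j * |f j - f x| with hR
          have hR0 : 0 ≤ R := Finset.sum_nonneg fun m _ => Finset.sum_nonneg fun x _ =>
            Finset.sum_nonneg fun j _ => mul_nonneg (hρv0 m x j) (abs_nonneg _)
          have h11 : Real.sqrt t * Real.sqrt t = t := Real.mul_self_sqrt ht0.le
          calc Real.sqrt t * ∑ x, ∑ y, π x * A x y * v x y *
              |∑ n ∈ range t, cw t n * Phi (heat A f n x) - ∑ n ∈ range t, cw t n * Phi (heat A f n y)|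
              ≤ Real.sqrt t * ((2 / (t * (t + 1))) * (32 * Real.sqrt t * R)) := by
                refine mul_le_mul_of_nonneg_left (h1.trans ?_) (Real.sqrt_nonneg _)
                rw [h5]
                exact mul_le_mul_of_nonneg_left h10 (by positivity)
            _ = (Real.sqrt t * Real.sqrt t) * (64 / (t * (t + 1))) * R := by ring
            _ = (64 / (t + 1)) * R := by rw [h11]; field_simp
            _ ≤ (64 / t) * R := by
                apply mul_le_mul_of_nonneg_right _ hR0
                apply div_le_div_of_nonneg_left (by norm_num) ht0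
                linarith
    -- general functions
    have hr0 : 0 ≤ Real.sqrt (t : ℝ) := Real.sqrt_nonneg _
    refine layer (P := fun F => ∃ g : V → ℝ, (∀ x, ∃ a, F a ≤ g x) ∧ (∀ x, ∃ b, g x ≤ F b) ∧
        cost π A w v (Real.sqrt t) F g ≤ ∑ x, ∑ j, ρ x j * |F j - F x|) ?_ ?_
    · intro F hF
      refine ⟨F, fun x => ⟨x, le_rfl⟩, fun x => ⟨x, le_rfl⟩, ?_⟩
      unfold cost
      have h1 : ∀ x y, |F x - F y| = 0 := by intro x y; rw [hF x y]; simp
      simp [h1]
    · intro F F2 f c hc hf hF hFd hmin hmax hP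
      obtain ⟨g2, hg2a, hg2b, hg2c⟩ := hP
      obtain ⟨g1, hg1a, hg1b, hg1c⟩ := hind f hf
      refine ⟨fun x => g2 x + c * g1 x - c, ?_, ?_, ?_⟩
      · intro x
        obtain ⟨x0, hx0⟩ := hmin
        obtain ⟨a, ha⟩ := hg2a x
        refine ⟨x0, ?_⟩
        have := hx0 a
        have := mul_nonneg hc (hg1a x)
        linarith
      · intro x
        obtain ⟨b, hb⟩ := hg2b x
        obtain ⟨y, hy⟩ := hmax b
        refine ⟨y, ?_⟩
        have : c * g1 x ≤ c * 1 := mul_le_mul_of_nonneg_left (hg1b x) hc
        linarith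
      · have h1 : cost π A w v (Real.sqrt t) F (fun x => g2 x + c * g1 x - c)
            ≤ cost π A w v (Real.sqrt t) F2 g2 + c * cost π A w v (Real.sqrt t) f g1 := by
          unfold cost
          have e1 : ∑ x, π x * w x * |F x - (g2 x + c * g1 x - c)|
              ≤ ∑ x, π x * w x * |F2 x - g2 x| + c * ∑ x, π x * w x * |f x - g1 x| := by
            rw [Finset.mul_sum, ← Finset.sum_add_distrib]
            refine Finset.sum_le_sum fun x _ => ?_
            have : |F x - (g2 x + c * g1 x - c)| ≤ |F2 x - g2 x| + c * |f x - g1 x| := by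
              rw [hF x, show F2 x + c * f x - c - (g2 x + c * g1 x - c)
                = (F2 x - g2 x) + c * (f x - g1 x) by ring]
              refine (abs_add_le _ _).trans ?_
              rw [abs_mul, abs_of_nonneg hc]
            have h0 := mul_nonneg (hπ x) (hw x)
            calc _ ≤ π x * w x * (|F2 x - g2 x| + c * |f x - g1 x|) :=
                  mul_le_mul_of_nonneg_left this h0
              _ = _ := by ring
          have e2 : ∑ x, ∑ y, π x * A x y * v x y * |(g2 x + c * g1 x - c) - (g2 y + c * g1 y - c)|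
              ≤ ∑ x, ∑ y, π x * A x y * v x y * |g2 x - g2 y|
                + c * ∑ x, ∑ y, π x * A x y * v x y * |g1 x - g1 y| := by
            rw [Finset.mul_sum, ← Finset.sum_add_distrib]
            refine Finset.sum_le_sum fun x _ => ?_
            rw [Finset.mul_sum, ← Finset.sum_add_distrib]
            refine Finset.sum_le_sum fun y _ => ?_
            have : |(g2 x + c * g1 x - c) - (g2 y + c * g1 y - c)| ≤ |g2 x - g2 y| + c * |g1 x - g1 y| := by
              rw [show (g2 x + c * g1 x - c) - (g2 y + c * g1 y - c)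
                = (g2 x - g2 y) + c * (g1 x - g1 y) by ring]
              refine (abs_add_le _ _).trans ?_
              rw [abs_mul, abs_of_nonneg hc]
            have h0 := mul_nonneg (mul_nonneg (hπ x) (hA0 x y)) (hv x y)
            calc _ ≤ π x * A x y * v x y * (|g2 x - g2 y| + c * |g1 x - g1 y|) :=
                  mul_le_mul_of_nonneg_left this h0
              _ = _ := by ring
          have e3 := mul_le_mul_of_nonneg_left e2 hr0
          calc _ ≤ (∑ x, π x * w x * |F2 x - g2 x| + c * ∑ x, π x * w x * |f x - g1 x|)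
                + Real.sqrt t * (∑ x, ∑ y, π x * A x y * v x y * |g2 x - g2 y|
                + c * ∑ x, ∑ y, π x * A x y * v x y * |g1 x - g1 y|) := add_le_add e1 e3
            _ = _ := by ring
        refine h1.trans ((add_le_add hg2c (mul_le_mul_of_nonneg_left hg1c hc)).trans (le_of_eq ?_))
        rw [Finset.mul_sum, ← Finset.sum_add_distrib]
        refine Finset.sum_congr rfl fun x _ => ?_
        rw [Finset.mul_sum, ← Finset.sum_add_distrib]
        refine Finset.sum_congr rfl fun j _ => ?_
        rw [hFd x j]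
        ring
  · -- the dual estimate
    intro z hz
    rw [hexp]
    set D : ℕ → ℝ := fun n => ∑ x, π x * heat A (fun j => z x j ^ 2) n x with hD
    have hD0 : ∀ n, 0 ≤ D n := by
      intro n
      refine Finset.sum_nonneg fun x _ => mul_nonneg (hπ x) ?_
      have := heat_mono hA0 (f := fun _ => 0) (g := fun j => z x j ^ 2) (fun j => sq_nonneg _) n x
      rwa [heat_const hA1] at this
    set W : ℝ := Real.sqrt (∑ x, π x * w x ^ 2) with hW
    set Vn : ℝ := Real.sqrt (∑ x, ∑ y, π x * A x y * v x y ^ 2) with hVn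
    set J : ℝ := ∑ x, π x * w x ^ 2 + ∑ x, ∑ y, π x * A x y * v x y ^ 2 with hJ
    have hw2 : 0 ≤ ∑ x, π x * w x ^ 2 := Finset.sum_nonneg fun x _ => mul_nonneg (hπ x) (sq_nonneg _)
    have hv2 : 0 ≤ ∑ x, ∑ y, π x * A x y * v x y ^ 2 :=
      Finset.sum_nonneg fun x _ => Finset.sum_nonneg fun y _ =>
        mul_nonneg (mul_nonneg (hπ x) (hA0 x y)) (sq_nonneg _)
    have hWJ : W ≤ Real.sqrt J := Real.sqrt_le_sqrt (by linarith)
    have hVJ : Vn ≤ Real.sqrt J := Real.sqrt_le_sqrt (by linarith)
    have hwpart : ∀ n, ∑ x, π x * w x * heat A (z x) n x ≤ W * Real.sqrt (D n) := by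
      intro n
      have h1 : ∀ x, π x * w x * heat A (z x) n x
          ≤ Real.sqrt (π x * w x ^ 2) * Real.sqrt (π x * heat A (fun j => z x j ^ 2) n x) := by
        intro x
        have h2 := heat_sq_le hA0 hA1 (z x) n x
        rw [← Real.sqrt_mul (mul_nonneg (hπ x) (sq_nonneg _))]
        apply Real.le_sqrt_of_sq_le
        have h3 : 0 ≤ π x ^ 2 * w x ^ 2 := by positivity
        nlinarith [mul_le_mul_of_nonneg_left h2 h3]
      refine (Finset.sum_le_sum fun x _ => h1 x).trans ?_
      refine Real.sum_sqrt_mul_sqrt_le _ (fun x => mul_nonneg (hπ x) (sq_nonneg _)) (fun x => ?_)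
      refine mul_nonneg (hπ x) ?_
      have := heat_mono hA0 (f := fun _ => 0) (g := fun j => z x j ^ 2) (fun j => sq_nonneg _) n x
      rwa [heat_const hA1] at this
    have hsq : ∀ (s : Finset ℕ) (E : ℕ → ℝ), (∀ n, 0 ≤ E n) →
        ∑ n ∈ s, Real.sqrt (E n) ≤ Real.sqrt s.card * Real.sqrt (∑ n ∈ s, E n) := by
      intro s E hE
      have := Real.sum_sqrt_mul_sqrt_le s (f := fun _ => (1:ℝ)) (g := E) (fun _ => zero_le_one) hE
      simpa using this
    set Q : ℝ := ∑ n ∈ range (t + 1), D n with hQ
    have hQ0 : 0 ≤ Q := Finset.sum_nonneg fun n _ => hD0 n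
    have hs1 : ∑ n ∈ range t, Real.sqrt (D n) ≤ Real.sqrt t * Real.sqrt Q := by
      have h1 := hsq (range t) D hD0
      rw [Finset.card_range] at h1
      refine h1.trans (mul_le_mul_of_nonneg_left (Real.sqrt_le_sqrt ?_) (Real.sqrt_nonneg _))
      rw [hQ, Finset.sum_range_succ]
      linarith [hD0 t]
    have hs2 : ∑ m ∈ range t, Real.sqrt (D (m + 1)) ≤ Real.sqrt t * Real.sqrt Q := by
      have h1 := hsq (range t) (fun m => D (m + 1)) (fun m => hD0 _)
      rw [Finset.card_range] at h1
      refine h1.trans (mul_le_mul_of_nonneg_left (Real.sqrt_le_sqrt ?_) (Real.sqrt_nonneg _))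
      rw [hQ, Finset.sum_range_succ']
      linarith [hD0 0]
    set E : ℝ := ∑ k ∈ Icc 1 t, ∑ x, π x * (Matrix.of A ^ k).mulVec (fun j => z x j ^ 2) x with hE
    have hQE : Q ≤ 2 * E := by
      have h1 : Q = ∑ x, π x * ∑ n ∈ range (t + 1), heat A (fun j => z x j ^ 2) n x := by
        rw [hQ, hD]
        simp only [Finset.mul_sum]
        rw [Finset.sum_comm]
      have h2 : E = ∑ x, π x * ∑ k ∈ range (t + 1), (Matrix.of A ^ k).mulVec (fun j => z x j ^ 2) x := by
        have h3 : ∀ x, ∑ k ∈ range (t + 1), (Matrix.of A ^ k).mulVec (fun j => z x j ^ 2) x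
            = ∑ k ∈ Icc 1 t, (Matrix.of A ^ k).mulVec (fun j => z x j ^ 2) x := by
          intro x
          rw [Finset.sum_range_succ']
          have h4 : (Matrix.of A ^ 0).mulVec (fun j => z x j ^ 2) x = 0 := by
            simp [hz x]
          rw [h4, add_zero, Finset.range_eq_Ico, Finset.sum_Ico_add' (fun k => (Matrix.of A ^ k).mulVec (fun j => z x j ^ 2) x) 0 t 1]
          refine Finset.sum_congr ?_ fun _ _ => rfl
          ext k; simp
        simp only [h3]
        rw [hE, Finset.sum_comm]
        simp only [Finset.mul_sum]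
      rw [h1, h2, Finset.mul_sum]
      refine Finset.sum_le_sum fun x _ => ?_
      have := sum_heat_le hA0 hA1 (f := fun j => z x j ^ 2) (fun j => sq_nonneg _) t x
      have := mul_le_mul_of_nonneg_left this (hπ x)
      linarith
    have hE0 : 0 ≤ E := by linarith
    have hfin : (1 / t) * (Real.sqrt t * Real.sqrt Q) ≤ Real.sqrt 2 * Real.sqrt ((1 / t) * E) := by
      have h1 : Real.sqrt Q ≤ Real.sqrt 2 * Real.sqrt E := by
        rw [← Real.sqrt_mul (by norm_num : (0:ℝ) ≤ 2)]
        exact Real.sqrt_le_sqrt hQE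
      have h2 : (1 / (t:ℝ)) * Real.sqrt t = Real.sqrt (1 / t) := by
        rw [Real.sqrt_div' 1 ht0.le, Real.sqrt_one]
        rw [div_mul_eq_mul_div, one_mul, div_eq_div_iff ht0.ne' (Real.sqrt_pos.mpr ht0).ne']
        rw [Real.mul_self_sqrt ht0.le, one_mul]
      rw [← mul_assoc, h2, Real.sqrt_mul (by positivity : (0:ℝ) ≤ 1 / t)]
      have := mul_le_mul_of_nonneg_left h1 (Real.sqrt_nonneg (1 / (t:ℝ)))
      refine this.trans (le_of_eq ?_)
      ring
    have hsJ : 0 ≤ Real.sqrt J := Real.sqrt_nonneg _
    have hp1 : (4 / t) * ∑ n ∈ range t, ∑ x, π x * w x * heat A (z x) n x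
        ≤ 4 * Real.sqrt J * ((1 / t) * (Real.sqrt t * Real.sqrt Q)) := by
      have h1 : ∑ n ∈ range t, ∑ x, π x * w x * heat A (z x) n x
          ≤ Real.sqrt J * (Real.sqrt t * Real.sqrt Q) := by
        calc _ ≤ ∑ n ∈ range t, W * Real.sqrt (D n) := Finset.sum_le_sum fun n _ => hwpart n
          _ = W * ∑ n ∈ range t, Real.sqrt (D n) := by rw [Finset.mul_sum]
          _ ≤ Real.sqrt J * (Real.sqrt t * Real.sqrt Q) :=
              mul_le_mul hWJ hs1 (Finset.sum_nonneg fun _ _ => Real.sqrt_nonneg _) hsJ
      have h2 : (0:ℝ) ≤ 4 / t := by positivity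
      calc _ ≤ (4 / t) * (Real.sqrt J * (Real.sqrt t * Real.sqrt Q)) :=
            mul_le_mul_of_nonneg_left h1 h2
        _ = _ := by ring
    have hp2 : (64 / t) * ∑ m ∈ range t, ∑ x, ∑ j, ρv m x j * z x j
        ≤ 256 * Real.sqrt J * ((1 / t) * (Real.sqrt t * Real.sqrt Q)) := by
      have h1 : ∑ m ∈ range t, ∑ x, ∑ j, ρv m x j * z x j
          ≤ 4 * Real.sqrt J * (Real.sqrt t * Real.sqrt Q) := by
        calc _ ≤ ∑ m ∈ range t, 4 * Vn * Real.sqrt (D (m + 1)) :=
              Finset.sum_le_sum fun m _ => hρv2 m z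
          _ = 4 * Vn * ∑ m ∈ range t, Real.sqrt (D (m + 1)) := by rw [Finset.mul_sum]
          _ ≤ 4 * Real.sqrt J * (Real.sqrt t * Real.sqrt Q) :=
              mul_le_mul (by linarith) hs2 (Finset.sum_nonneg fun _ _ => Real.sqrt_nonneg _)
                (by linarith)
      have h2 : (0:ℝ) ≤ 64 / t := by positivity
      calc _ ≤ (64 / t) * (4 * Real.sqrt J * (Real.sqrt t * Real.sqrt Q)) :=
            mul_le_mul_of_nonneg_left h1 h2
        _ = _ := by ring
    have hsqrt2 : Real.sqrt 2 ≤ 1.5 := by
      rw [Real.sqrt_le_left (by norm_num)]; norm_num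
    have hX : 0 ≤ Real.sqrt ((1 / t) * E) := Real.sqrt_nonneg _
    calc _ ≤ 260 * Real.sqrt J * ((1 / t) * (Real.sqrt t * Real.sqrt Q)) := by linarith
      _ ≤ 260 * Real.sqrt J * (Real.sqrt 2 * Real.sqrt ((1 / t) * E)) :=
          mul_le_mul_of_nonneg_left hfin (by linarith)
      _ ≤ 260 * Real.sqrt J * (1.5 * Real.sqrt ((1 / t) * E)) :=
          mul_le_mul_of_nonneg_left (mul_le_mul_of_nonneg_right hsqrt2 hX) (by linarith)
      _ ≤ 400 * Real.sqrt J * Real.sqrt ((1 / t) * E) := by
          nlinarith [mul_nonneg hsJ hX]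

end Vale.Agent.H14.Cotype
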