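import Mathlib

set_option linter.unusedSectionVars false

open Finset

namespace Vale.Agent.H14.Cotype

variable {S : Type} [Fintype S]

/-- Expectation over `N` further steps of a functional `G` of the history; the newest state is at
the head of the list. -/
def tE (κ : List S → S → ℝ) : ℕ → (List S → ℝ) → List S → ℝ
  | 0, G, p => G p
  | (N + 1), G, p => ∑ s, κ p s * tE κ N G (s :: p)

/-- `κ` is a stochastic kernel. -/
structure Stoch (κ : List S → S → ℝ) : Prop where
  nonneg : ∀ p s, 0 ≤ κ p s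
  sum_one : ∀ p, ∑ s, κ p s = 1

variable {κ : List S → S → ℝ}

@[simp] lemma tE_zero (G : List S → ℝ) (p : List S) : tE κ 0 G p = G p := rfl

lemma tE_succ (N : ℕ) (G : List S → ℝ) (p : List S) :
    tE κ (N + 1) G p = ∑ s, κ p s * tE κ N G (s :: p) := rfl

lemma tE_congr {N : ℕ} {G G' : List S → ℝ} {p : List S}
    (h : ∀ r : List S, r.length = N → G (r ++ p) = G' (r ++ p)) :
    tE κ N G p = tE κ N G' p := by
  induction N generalizing p with
  | zero => simpa using h [] rfl
  | succ N ih =>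
    rw [tE_succ, tE_succ]
    refine Finset.sum_congr rfl fun s _ => ?_
    congr 1
    refine ih fun r hr => ?_
    have := h (r ++ [s]) (by simp [hr])
    simpa using this

lemma tE_mono (hκ : Stoch κ) {N : ℕ} {G G' : List S → ℝ} {p : List S}
    (h : ∀ r : List S, r.length = N → G (r ++ p) ≤ G' (r ++ p)) :
    tE κ N G p ≤ tE κ N G' p := by
  induction N generalizing p with
  | zero => simpa using h [] rfl
  | succ N ih =>
    rw [tE_succ, tE_succ]
    refine Finset.sum_le_sum fun s _ => ?_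
    refine mul_le_mul_of_nonneg_left ?_ (hκ.nonneg p s)
    refine ih fun r hr => ?_
    have := h (r ++ [s]) (by simp [hr])
    simpa using this

lemma tE_add (N : ℕ) (G G' : List S → ℝ) (p : List S) :
    tE κ N (fun q => G q + G' q) p = tE κ N G p + tE κ N G' p := by
  induction N generalizing p with
  | zero => rfl
  | succ N ih =>
    rw [tE_succ, tE_succ, tE_succ, ← Finset.sum_add_distrib]
    refine Finset.sum_congr rfl fun s _ => ?_
    rw [ih, mul_add]

lemma tE_const_mul (N : ℕ) (c : ℝ) (G : List S → ℝ) (p : List S) :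
    tE κ N (fun q => c * G q) p = c * tE κ N G p := by
  induction N generalizing p with
  | zero => rfl
  | succ N ih =>
    rw [tE_succ, tE_succ, Finset.mul_sum]
    refine Finset.sum_congr rfl fun s _ => ?_
    rw [ih]; ring

lemma tE_const (hκ : Stoch κ) (N : ℕ) (c : ℝ) (p : List S) :
    tE κ N (fun _ => c) p = c := by
  induction N generalizing p with
  | zero => rfl
  | succ N ih =>
    rw [tE_succ]
    simp only [ih]
    rw [← Finset.sum_mul, hκ.sum_one, one_mul]

lemma tE_nonneg (hκ : Stoch κ) {N : ℕ} {G : List S → ℝ} (h : ∀ q, 0 ≤ G q) (p : List S) :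
    0 ≤ tE κ N G p := by
  have := tE_mono hκ (N := N) (G := fun _ => 0) (G' := G) (p := p) (fun r _ => h _)
  rwa [tE_const hκ] at this

lemma tE_sum {ι : Type*} (t : Finset ι) (N : ℕ) (G : ι → List S → ℝ) (p : List S) :
    tE κ N (fun q => ∑ i ∈ t, G i q) p = ∑ i ∈ t, tE κ N (G i) p := by
  classical
  induction t using Finset.induction_on with
  | empty =>
    simp only [Finset.sum_empty]
    have := tE_const_mul (κ := κ) N 0 (fun _ => (0 : ℝ)) p
    simpa using this
  | insert a t ha ih =>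
    simp only [Finset.sum_insert ha]
    rw [tE_add, ih]

/-- Cauchy-Schwarz. -/
lemma tE_cs (hκ : Stoch κ) (N : ℕ) (G H : List S → ℝ) (p : List S) :
    (tE κ N (fun q => G q * H q) p) ^ 2 ≤ tE κ N (fun q => G q ^ 2) p * tE κ N (fun q => H q ^ 2) p := by
  have key : ∀ x : ℝ, 0 ≤ tE κ N (fun q => H q ^ 2) p * (x * x)
      + (-2 * tE κ N (fun q => G q * H q) p) * x + tE κ N (fun q => G q ^ 2) p := by
    intro x
    have h1 : tE κ N (fun q => (G q - x * H q) ^ 2) p
        = tE κ N (fun q => H q ^ 2) p * (x * x)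
          + (-2 * tE κ N (fun q => G q * H q) p) * x + tE κ N (fun q => G q ^ 2) p := by
      have h2 : (fun q => (G q - x * H q) ^ 2)
          = fun q => ((x * x) * H q ^ 2 + (-2 * x) * (G q * H q)) + G q ^ 2 := by
        funext q; ring
      rw [h2, tE_add, tE_add, tE_const_mul, tE_const_mul]
      ring
    rw [← h1]
    exact tE_nonneg hκ (fun q => sq_nonneg _) p
  have := discrim_le_zero key
  unfold discrim at this
  nlinarith [this]

/-- The maximal functional: the largest value of the conditional expectations of `G` given the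
history up to the `k`-th last step, `k ≤ N`. -/
def star (κ : List S → S → ℝ) : ℕ → (List S → ℝ) → List S → ℝ
  | 0, G, q => G q
  | (N + 1), G, q => max (tE κ (N + 1) G (q.drop (N + 1))) (star κ N G q)

lemma star_succ (N : ℕ) (G : List S → ℝ) (q : List S) :
    star κ (N + 1) G q = max (tE κ (N + 1) G (q.drop (N + 1))) (star κ N G q) := rfl

lemma star_le_star {k N : ℕ} (h : k ≤ N) (G : List S → ℝ) (q : List S) :
    star κ k G q ≤ star κ N G q := by
  induction N with
  | zero =>
    obtain rfl : k = 0 := by omega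
    exact le_rfl
  | succ N ih =>
    rcases Nat.lt_or_ge k (N + 1) with h1 | h1
    · exact (ih (by omega)).trans (le_max_right _ _)
    · obtain rfl : k = N + 1 := by omega
      exact le_rfl

lemma tE_drop_le_star {k N : ℕ} (h : k ≤ N) (G : List S → ℝ) (q : List S) :
    tE κ k G (q.drop k) ≤ star κ N G q := by
  refine le_trans ?_ (star_le_star h G q)
  cases k with
  | zero => simp [star]
  | succ k => exact le_max_left _ _

lemma star_nonneg {N : ℕ} {G : List S → ℝ} (hG : ∀ q, 0 ≤ G q) (q : List S) :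
    0 ≤ star κ N G q := by
  refine (hG q).trans ?_
  have := tE_drop_le_star (κ := κ) (Nat.zero_le N) G q
  simpa using this

lemma drop_app {r : List S} {N : ℕ} (h : r.length = N) (p : List S) : (r ++ p).drop N = p := by
  subst h; simp

lemma drop_app_succ {r : List S} {N : ℕ} (h : r.length = N) (s : S) (p : List S) :
    (r ++ s :: p).drop (N + 1) = p := by
  subst h
  have : r ++ s :: p = (r ++ [s]) ++ p := by simp
  rw [this]
  exact drop_app (by simp) p

/-- Doob's `L²` maximal inequality, in a form suited to induction. -/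
lemma doob_aux (hκ : Stoch κ) {G : List S → ℝ} (N : ℕ) :
    ∀ (p : List S) (m : ℝ), tE κ N G p ≤ m →
      tE κ N (fun q => (max m (star κ N G q)) ^ 2) p
        ≤ 4 * tE κ N (fun q => G q ^ 2) p + 2 * m ^ 2 - 4 * m * tE κ N G p := by
  induction N with
  | zero =>
    intro p m hm
    simp only [tE_zero, star] at *
    rw [max_eq_left hm]
    nlinarith [sq_nonneg (m - 2 * G p)]
  | succ N ih =>
    intro p m hm
    rw [tE_succ]
    have h1 : ∀ s, tE κ N (fun q => (max m (star κ (N + 1) G q)) ^ 2) (s :: p)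
        = tE κ N (fun q => (max (max m (tE κ N G (s :: p))) (star κ N G q)) ^ 2) (s :: p) := by
      intro s
      refine tE_congr fun r hr => ?_
      have h2 : tE κ N G (s :: p) ≤ star κ N G (r ++ s :: p) := by
        have := tE_drop_le_star (κ := κ) (le_refl N) G (r ++ s :: p)
        rwa [drop_app hr] at this
      have h3 : star κ (N + 1) G (r ++ s :: p) = max (tE κ (N + 1) G p) (star κ N G (r ++ s :: p)) := by
        rw [star_succ, drop_app_succ hr]
      rw [h3, ← max_assoc, max_eq_left hm, max_assoc, max_eq_right h2]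
    have h4 : ∀ s, κ p s * tE κ N (fun q => (max m (star κ (N + 1) G q)) ^ 2) (s :: p)
        ≤ κ p s * (4 * tE κ N (fun q => G q ^ 2) (s :: p)) + κ p s * (2 * m ^ 2)
          - 4 * m * (κ p s * tE κ N G (s :: p)) := by
      intro s
      rw [h1 s]
      have h5 := ih (s :: p) (max m (tE κ N G (s :: p))) (le_max_right _ _)
      have h6 : 4 * tE κ N (fun q => G q ^ 2) (s :: p)
          + 2 * (max m (tE κ N G (s :: p))) ^ 2 - 4 * (max m (tE κ N G (s :: p))) * tE κ N G (s :: p)
          ≤ 4 * tE κ N (fun q => G q ^ 2) (s :: p) + 2 * m ^ 2 - 4 * m * tE κ N G (s :: p) := by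
        rcases le_total (tE κ N G (s :: p)) m with h | h
        · rw [max_eq_left h]
        · rw [max_eq_right h]
          nlinarith [sq_nonneg (m - tE κ N G (s :: p))]
      have := mul_le_mul_of_nonneg_left (h5.trans h6) (hκ.nonneg p s)
      refine this.trans (le_of_eq ?_)
      ring
    refine (Finset.sum_le_sum fun s _ => h4 s).trans (le_of_eq ?_)
    rw [Finset.sum_sub_distrib, Finset.sum_add_distrib, ← Finset.sum_mul, hκ.sum_one,
      ← Finset.mul_sum, tE_succ, tE_succ, Finset.mul_sum]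
    have : ∑ i, κ p i * (4 * tE κ N (fun q => G q ^ 2) (i :: p))
        = ∑ i, 4 * (κ p i * tE κ N (fun q => G q ^ 2) (i :: p)) :=
      Finset.sum_congr rfl fun i _ => by ring
    rw [this, ← Finset.mul_sum, ← Finset.mul_sum, one_mul]

lemma doob (hκ : Stoch κ) {G : List S → ℝ} (N : ℕ) (p : List S) :
    tE κ N (fun q => (star κ N G q) ^ 2) p ≤ 4 * tE κ N (fun q => G q ^ 2) p := by
  have h := doob_aux hκ (G := G) N p (tE κ N G p) le_rfl
  have h1 : tE κ N (fun q => (max (tE κ N G p) (star κ N G q)) ^ 2) p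
      = tE κ N (fun q => (star κ N G q) ^ 2) p := by
    refine tE_congr fun r hr => ?_
    have h2 : tE κ N G p ≤ star κ N G (r ++ p) := by
      have := tE_drop_le_star (κ := κ) (le_refl N) G (r ++ p)
      rwa [drop_app hr] at this
    rw [max_eq_right h2]
  rw [h1] at h
  nlinarith [sq_nonneg (tE κ N G p)]

/-- Conditional variance of the next step of the martingale generated by `Ξ`, with `k + 1` steps
to go. -/
def cvar (κ : List S → S → ℝ) (Ξ : List S → ℝ) (k : ℕ) (p : List S) : ℝ :=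
  ∑ s, κ p s * (tE κ k Ξ (s :: p) - tE κ (k + 1) Ξ p) ^ 2

lemma cvar_nonneg (hκ : Stoch κ) (Ξ : List S → ℝ) (k : ℕ) (p : List S) : 0 ≤ cvar κ Ξ k p :=
  Finset.sum_nonneg fun s _ => mul_nonneg (hκ.nonneg p s) (sq_nonneg _)

lemma cvar_eq (hκ : Stoch κ) (Ξ : List S → ℝ) (k : ℕ) (p : List S) :
    cvar κ Ξ k p = ∑ s, κ p s * (tE κ k Ξ (s :: p)) ^ 2 - (tE κ (k + 1) Ξ p) ^ 2 := by
  unfold cvar
  have h : ∀ s, κ p s * (tE κ k Ξ (s :: p) - tE κ (k + 1) Ξ p) ^ 2
      = κ p s * (tE κ k Ξ (s :: p)) ^ 2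
        - 2 * tE κ (k + 1) Ξ p * (κ p s * tE κ k Ξ (s :: p)) + κ p s * (tE κ (k + 1) Ξ p) ^ 2 := by
    intro s; ring
  simp only [h]
  rw [Finset.sum_add_distrib, Finset.sum_sub_distrib, ← Finset.mul_sum, ← tE_succ,
    ← Finset.sum_mul, hκ.sum_one]
  ring

/-- Additive functional of the history. -/
def addF (ψ : ℕ → List S → ℝ) (N : ℕ) (q : List S) : ℝ :=
  ∑ k ∈ range N, ψ (k + 1) (q.drop (k + 1))

lemma addF_succ (ψ : ℕ → List S → ℝ) (N : ℕ) (q : List S) :
    addF ψ (N + 1) q = addF ψ N q + ψ (N + 1) (q.drop (N + 1)) := by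
  unfold addF; rw [Finset.sum_range_succ]

lemma addF_zero (ψ : ℕ → List S → ℝ) (q : List S) : addF ψ 0 q = 0 := rfl

lemma addF_nonneg {ψ : ℕ → List S → ℝ} (h : ∀ k p, 0 ≤ ψ k p) (N : ℕ) (q : List S) :
    0 ≤ addF ψ N q := Finset.sum_nonneg fun _ _ => h _ _

/-- the predictable quadratic variation integrand -/
def qvF (κ : List S → S → ℝ) (Ξ : List S → ℝ) (k : ℕ) (p : List S) : ℝ := cvar κ Ξ (k - 1) p

open Classical in
/-- the same, counted only while the martingale is in `(1/8, 7/8)` -/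
noncomputable def spF (κ : List S → S → ℝ) (Ξ : List S → ℝ) (k : ℕ) (p : List S) : ℝ :=
  if 1 / 8 < tE κ k Ξ p ∧ tE κ k Ξ p < 7 / 8 then cvar κ Ξ (k - 1) p else 0

lemma spF_le_qvF (hκ : Stoch κ) (Ξ : List S → ℝ) (k : ℕ) (p : List S) :
    spF κ Ξ k p ≤ qvF κ Ξ k p := by
  unfold spF qvF
  split_ifs
  · exact le_rfl
  · exact cvar_nonneg hκ _ _ _

lemma spF_nonneg (hκ : Stoch κ) (Ξ : List S → ℝ) (k : ℕ) (p : List S) :
    0 ≤ spF κ Ξ k p := by
  unfold spF
  split_ifs
  · exact cvar_nonneg hκ _ _ _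
  · exact le_rfl

/-- `BMO`-type summation by parts. -/
lemma bmo (hκ : Stoch κ) {U Ξ : List S → ℝ} (hU : ∀ q, 0 ≤ U q)
    (hΞ0 : ∀ q, 0 ≤ Ξ q) (hΞ1 : ∀ q, Ξ q ≤ 1) (N : ℕ) :
    ∀ (p : List S) (m : ℝ), tE κ N U p ≤ m →
      tE κ N (fun q => U q * addF (qvF κ Ξ) N q) p
        ≤ m * (tE κ N Ξ p * (1 - tE κ N Ξ p))
          + (tE κ N (fun q => max m (star κ N U q)) p - m) := by
  have hb : ∀ N p, 0 ≤ tE κ N Ξ p ∧ tE κ N Ξ p ≤ 1 := by
    intro N p
    refine ⟨tE_nonneg hκ hΞ0 p, ?_⟩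
    have := tE_mono hκ (N := N) (G := Ξ) (G' := fun _ => 1) (p := p) (fun r _ => hΞ1 _)
    rwa [tE_const hκ] at this
  induction N with
  | zero =>
    intro p m hm
    have h0 := hb 0 p
    simp only [tE_zero, addF_zero, mul_zero] at *
    have h1 : 0 ≤ m := (hU p).trans hm
    have h2 : m ≤ max m (star κ 0 U p) := le_max_left _ _
    have h3 : 0 ≤ m * (Ξ p * (1 - Ξ p)) :=
      mul_nonneg h1 (mul_nonneg h0.1 (by linarith [h0.2]))
    linarith
  | succ N ih =>
    intro p m hm
    have hm0 : 0 ≤ m := (tE_nonneg hκ hU p).trans hm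
    rw [tE_succ]
    -- rewrite the left side
    have h1 : ∀ s, tE κ N (fun q => U q * addF (qvF κ Ξ) (N + 1) q) (s :: p)
        = tE κ N (fun q => U q * addF (qvF κ Ξ) N q) (s :: p)
          + cvar κ Ξ N p * tE κ N U (s :: p) := by
      intro s
      rw [← tE_const_mul, ← tE_add]
      refine tE_congr fun r hr => ?_
      rw [addF_succ, drop_app_succ hr]
      simp only [qvF, Nat.add_sub_cancel]
      ring
    have h2 : ∀ s, tE κ N (fun q => max (max m (tE κ N U (s :: p))) (star κ N U q)) (s :: p)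
        = tE κ N (fun q => max m (star κ (N + 1) U q)) (s :: p) := by
      intro s
      refine tE_congr fun r hr => ?_
      have h2 : tE κ N U (s :: p) ≤ star κ N U (r ++ s :: p) := by
        have := tE_drop_le_star (κ := κ) (le_refl N) U (r ++ s :: p)
        rwa [drop_app hr] at this
      have h3 : star κ (N + 1) U (r ++ s :: p)
          = max (tE κ (N + 1) U p) (star κ N U (r ++ s :: p)) := by
        rw [star_succ, drop_app_succ hr]
      rw [h3, ← max_assoc, max_eq_left hm, max_assoc, max_eq_right h2]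
    have h4 : ∀ s, κ p s * tE κ N (fun q => U q * addF (qvF κ Ξ) (N + 1) q) (s :: p)
        ≤ m * (κ p s * tE κ N Ξ (s :: p)) - m * (κ p s * (tE κ N Ξ (s :: p)) ^ 2)
          + κ p s * tE κ N (fun q => max m (star κ (N + 1) U q)) (s :: p) - m * κ p s
          + cvar κ Ξ N p * (κ p s * tE κ N U (s :: p)) := by
      intro s
      have h5 := ih (s :: p) (max m (tE κ N U (s :: p))) (le_max_right _ _)
      rw [h2 s] at h5
      have h6 := hb N (s :: p)
      have h7 : (max m (tE κ N U (s :: p))) *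
          (tE κ N Ξ (s :: p) * (1 - tE κ N Ξ (s :: p)) - 1)
          ≤ m * (tE κ N Ξ (s :: p) * (1 - tE κ N Ξ (s :: p)) - 1) := by
        apply mul_le_mul_of_nonpos_right (le_max_left _ _)
        nlinarith [h6.1, h6.2]
      have h8 : tE κ N (fun q => U q * addF (qvF κ Ξ) N q) (s :: p)
          ≤ m * (tE κ N Ξ (s :: p) * (1 - tE κ N Ξ (s :: p)) - 1)
            + tE κ N (fun q => max m (star κ (N + 1) U q)) (s :: p) := by
        linarith
      rw [h1 s]
      have := mul_le_mul_of_nonneg_left h8 (hκ.nonneg p s)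
      nlinarith [this]
    refine (Finset.sum_le_sum fun s _ => h4 s).trans ?_
    rw [Finset.sum_add_distrib, Finset.sum_sub_distrib, Finset.sum_add_distrib,
      Finset.sum_sub_distrib, ← Finset.mul_sum, ← Finset.mul_sum, ← Finset.mul_sum,
      ← Finset.mul_sum, hκ.sum_one, ← tE_succ, ← tE_succ, ← tE_succ]
    have h9 := cvar_eq hκ Ξ N p
    have h10 : ∑ s, κ p s * (tE κ N Ξ (s :: p)) ^ 2 = cvar κ Ξ N p + (tE κ (N + 1) Ξ p) ^ 2 := by
      linarith
    rw [h10]
    have h11 : cvar κ Ξ N p * tE κ (N + 1) U p ≤ cvar κ Ξ N p * m :=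
      mul_le_mul_of_nonneg_left hm (cvar_nonneg hκ _ _ _)
    nlinarith [h11]

/-- The main estimate on trees. -/
lemma main_tree (hκ : Stoch κ) {U Ξ Δ : List S → ℝ} (hU : ∀ q, 0 ≤ U q)
    (hΞ0 : ∀ q, 0 ≤ Ξ q) (hΞ1 : ∀ q, Ξ q ≤ 1) (hΔ0 : ∀ q, 0 ≤ Δ q)
    (hΔ : ∀ N p, 1 / 8 < tE κ N Ξ p → tE κ N Ξ p < 7 / 8 → 1 / 8 ≤ tE κ N Δ p) (N₀ : ℕ) (N : ℕ) :
    ∀ (p : List S), N ≤ N₀ →
      tE κ N (fun q => U q * Real.sqrt (addF (spF κ Ξ) N q)) p
        ≤ 8 * tE κ N (fun q => star κ N₀ (star κ N₀ U) q * Δ q) p := by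
  have hU1 : ∀ q, 0 ≤ star κ N₀ U q := star_nonneg hU
  have hU2 : ∀ q, 0 ≤ star κ N₀ (star κ N₀ U) q := star_nonneg hU1
  have hRHS : ∀ N p, 0 ≤ 8 * tE κ N (fun q => star κ N₀ (star κ N₀ U) q * Δ q) p := by
    intro N p
    exact mul_nonneg (by norm_num) (tE_nonneg hκ (fun q => mul_nonneg (hU2 q) (hΔ0 q)) p)
  have mid : ∀ (N : ℕ) (p : List S), N ≤ N₀ → 1 / 8 < tE κ N Ξ p → tE κ N Ξ p < 7 / 8 →
      tE κ N (fun q => U q * Real.sqrt (addF (spF κ Ξ) N q)) p
        ≤ 8 * tE κ N (fun q => star κ N₀ (star κ N₀ U) q * Δ q) p := by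
    intro N p hN h1 h2
    have h3 := bmo hκ hU hΞ0 hΞ1 N p (tE κ N U p) le_rfl
    -- step 1
    have h4 : tE κ N (fun q => U q * Real.sqrt (addF (spF κ Ξ) N q)) p
        ≤ (1 / 2) * tE κ N U p + (1 / 2) * tE κ N (fun q => U q * addF (qvF κ Ξ) N q) p := by
      rw [← tE_const_mul, ← tE_const_mul, ← tE_add]
      refine tE_mono hκ fun r _ => ?_
      have h5 : addF (spF κ Ξ) N (r ++ p) ≤ addF (qvF κ Ξ) N (r ++ p) :=
        Finset.sum_le_sum fun k _ => spF_le_qvF hκ _ _ _
      have h6 : 0 ≤ addF (spF κ Ξ) N (r ++ p) := addF_nonneg (spF_nonneg hκ Ξ) _ _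
      have h7 : Real.sqrt (addF (spF κ Ξ) N (r ++ p)) ≤ 1 / 2 + 1 / 2 * addF (spF κ Ξ) N (r ++ p) := by
        have := Real.sq_sqrt h6
        nlinarith [sq_nonneg (Real.sqrt (addF (spF κ Ξ) N (r ++ p)) - 1)]
      have h8 := hU (r ++ p)
      nlinarith [mul_le_mul_of_nonneg_left (h7.trans (by linarith : (1:ℝ) / 2 + 1 / 2 * addF (spF κ Ξ) N (r ++ p) ≤ 1 / 2 + 1 / 2 * addF (qvF κ Ξ) N (r ++ p))) h8]
    have h5 : tE κ N (fun q => max (tE κ N U p) (star κ N U q)) p
        ≤ tE κ N (star κ N₀ U) p := by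
      refine tE_mono hκ fun r hr => ?_
      refine max_le ?_ (star_le_star hN _ _)
      have := tE_drop_le_star (κ := κ) hN U (r ++ p)
      rwa [drop_app hr] at this
    have h6 : tE κ N U p ≤ tE κ N (star κ N₀ U) p := by
      refine tE_mono hκ fun r hr => ?_
      have := tE_drop_le_star (κ := κ) (Nat.zero_le N₀) U (r ++ p)
      simpa using this
    have h7 : tE κ N Ξ p * (1 - tE κ N Ξ p) ≤ 1 := by nlinarith
    have h8 : 0 ≤ tE κ N U p := tE_nonneg hκ hU p
    have h9 : tE κ N (fun q => U q * Real.sqrt (addF (spF κ Ξ) N q)) p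
        ≤ tE κ N (star κ N₀ U) p := by
      nlinarith [mul_le_mul_of_nonneg_left h7 h8]
    have h10 : tE κ N (star κ N₀ U) p * tE κ N Δ p
        ≤ tE κ N (fun q => star κ N₀ (star κ N₀ U) q * Δ q) p := by
      rw [← tE_const_mul]
      refine tE_mono hκ fun r hr => ?_
      refine mul_le_mul_of_nonneg_right ?_ (hΔ0 _)
      have := tE_drop_le_star (κ := κ) hN (star κ N₀ U) (r ++ p)
      rwa [drop_app hr] at this
    have h11 := hΔ N p h1 h2
    have h12 : 0 ≤ tE κ N (star κ N₀ U) p := tE_nonneg hκ hU1 p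
    nlinarith [mul_le_mul_of_nonneg_left h11 h12]
  induction N with
  | zero =>
    intro p _
    have : tE κ 0 (fun q => U q * Real.sqrt (addF (spF κ Ξ) 0 q)) p = 0 := by
      simp [addF_zero]
    rw [this]
    exact hRHS 0 p
  | succ N ih =>
    intro p hN
    by_cases hm : 1 / 8 < tE κ (N + 1) Ξ p ∧ tE κ (N + 1) Ξ p < 7 / 8
    · exact mid (N + 1) p hN hm.1 hm.2
    · rw [tE_succ, tE_succ, Finset.mul_sum]
      refine Finset.sum_le_sum fun s _ => ?_
      have h1 : tE κ N (fun q => U q * Real.sqrt (addF (spF κ Ξ) (N + 1) q)) (s :: p)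
          = tE κ N (fun q => U q * Real.sqrt (addF (spF κ Ξ) N q)) (s :: p) := by
        refine tE_congr fun r hr => ?_
        rw [addF_succ, drop_app_succ hr]
        have : spF κ Ξ (N + 1) p = 0 := by
          unfold spF; rw [if_neg hm]
        rw [this, add_zero]
      rw [h1]
      have := mul_le_mul_of_nonneg_left (ih (s :: p) (by omega)) (hκ.nonneg p s)
      refine this.trans (le_of_eq ?_)
      ring

end Vale.Agent.H14.Cotype
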